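import Vale.Agent.P142.Pole

/-! The two-variable kernel and its coefficients. -/

open MeasureTheory Complex Set Metric Filter Topology
open scoped ComplexConjugate Real ENNReal

namespace Vale.Agent.P142

theorem fc_congr {g h : ℂ → ℂ} {ρ : ℝ} (hρ : 0 ≤ ρ) (e : ∀ z, ‖z‖ = ρ → g z = h z) (n : ℤ) :
    fc g ρ n = fc h ρ n := by
  simp only [fc]
  congr 1
  refine intervalIntegral.integral_congr fun θ _ => ?_
  rw [e _ (by simp [abs_of_nonneg hρ])]

theorem fc_sub {g h : ℂ → ℂ} {ρ : ℝ} (hg : Continuous fun θ : ℝ => g (circleMap 0 ρ θ))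
    (hh : Continuous fun θ : ℝ => h (circleMap 0 ρ θ)) (n : ℤ) :
    fc (fun z => g z - h z) ρ n = fc g ρ n - fc h ρ n := by
  simp only [fc, mul_sub]
  rw [intervalIntegral.integral_sub, mul_sub]
  · exact (Continuous.mul (by fun_prop) hg).intervalIntegrable _ _
  · exact (Continuous.mul (by fun_prop) hh).intervalIntegrable _ _

theorem fc_const_mul (g : ℂ → ℂ) (c : ℂ) (ρ : ℝ) (n : ℤ) :
    fc (fun z => c * g z) ρ n = c * fc g ρ n := by
  simp only [fc, mul_left_comm _ c, intervalIntegral.integral_const_mul]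

theorem fc_id_mul (g : ℂ → ℂ) (ρ : ℝ) (n : ℤ) :
    fc (fun z => z * g z) ρ (n + 1) = ρ * fc g ρ n := by
  rw [← fc_const_mul, fc, fc]
  congr 1
  refine intervalIntegral.integral_congr fun θ _ => ?_
  rw [show -((n : ℂ) * θ * I) = -(((n + 1 : ℤ) : ℂ) * θ * I) + θ * I by push_cast; ring, exp_add]
  nth_rewrite 1 [circleMap_zero]
  ring

theorem fc_cont {K : ℝ → ℂ → ℂ} {ρ : ℝ}
    (hK : Continuous fun p : ℝ × ℝ => K p.1 (circleMap 0 ρ p.2)) (n : ℤ) :
    Continuous fun α => fc (K α) ρ n := by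
  refine continuous_const.mul
    (intervalIntegral.continuous_parametric_intervalIntegral_of_continuous' ?_ _ _)
  exact Continuous.mul (f := fun p : ℝ × ℝ => exp (-(n * p.2 * I))) (by fun_prop) hK

theorem fc_swap {K : ℂ → ℂ → ℂ} {ρ σ : ℝ}
    (hK : Continuous fun p : ℝ × ℝ => K (circleMap 0 ρ p.1) (circleMap 0 σ p.2)) (j k : ℤ) :
    fc (fun z => fc (K z) σ k) ρ j = fc (fun w => fc (fun z => K z w) ρ j) σ k := by
  have hF : Continuous fun p : ℝ × ℝ => exp (-(j * p.1 * I)) * (exp (-(k * p.2 * I)) *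
      K (circleMap 0 ρ p.1) (circleMap 0 σ p.2)) :=
    Continuous.mul (by fun_prop) (Continuous.mul (by fun_prop) hK)
  have hi : Integrable (Function.uncurry fun α β : ℝ => exp (-(j * α * I)) * (exp (-(k * β * I)) *
      K (circleMap 0 ρ α) (circleMap 0 σ β)))
      ((volume.restrict (Ioc 0 (2 * π))).prod (volume.restrict (Ioc 0 (2 * π)))) := by
    rw [Measure.prod_restrict]
    exact (hF.continuousOn.integrableOn_compact (isCompact_Icc.prod isCompact_Icc)).mono_set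
      (prod_mono Ioc_subset_Icc_self Ioc_subset_Icc_self)
  have := integral_integral_swap hi
  simp only [fc, intervalIntegral.integral_of_le Real.two_pi_pos.le, mul_left_comm _ (1 / (2 * π) : ℂ),
    integral_const_mul]
  congr 2
  simp only [← integral_const_mul]
  rw [this]
  simp only [mul_left_comm]

theorem co_dslope {g : ℂ → ℂ} (hd : DifferentiableOn ℂ g (ball 0 1)) {w : ℂ} (hw : ‖w‖ < 1)
    (j : ℕ) : co g (j + 1) = co (dslope g w) j - w * co (dslope g w) (j + 1) := by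
  have hs : DifferentiableOn ℂ (dslope g w) (ball 0 1) :=
    (differentiableOn_dslope (isOpen_ball.mem_nhds (mem_ball_zero_iff.2 hw))).2 hd
  have h2 : (0 : ℝ) < 1 / 2 := by norm_num
  have hb := sub_ball (show (1 / 2 : ℝ) < 1 by norm_num)
  have hc := cont_circ h2.le ((hs.mono hb).continuousOn.mono sphere_subset_closedBall)
  have e1 : co g (j + 1) = co (fun z => g z - g w) (j + 1) := by
    have h3 : (j : ℂ) + 1 ≠ 0 := by exact_mod_cast j.succ_ne_zero
    refine mul_left_cancel₀ h3 ?_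
    rw [← co_deriv, ← co_deriv]
    congr 1
    funext z
    rw [deriv_sub_const]
  have e2 := fc_nat h2 ((hd.sub_const (g w)).mono hb) (j + 1)
  have e3 : (fun z => g z - g w) = fun z => z * dslope g w z - w * dslope g w z := by
    funext z
    rw [← sub_mul, ← smul_eq_mul, sub_smul_dslope]
  rw [← e1, e3, fc_sub (g := fun z => z * dslope g w z) (h := fun z => w * dslope g w z)
    ((continuous_circleMap 0 _).mul hc) (continuous_const.mul hc), fc_const_mul,
    fc_nat h2 (hs.mono hb), Nat.cast_succ, fc_id_mul, fc_nat h2 (hs.mono hb)] at e2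
  have h4 : (((1 / 2 : ℝ) : ℂ)) ^ (j + 1) ≠ 0 := pow_ne_zero _ (by norm_num)
  refine mul_right_cancel₀ h4 ?_
  rw [← e2]
  ring

/-- iterated difference quotients at the origin -/
noncomputable def tl (g : ℂ → ℂ) : ℕ → ℂ → ℂ
  | 0 => g
  | n + 1 => dslope (tl g n) 0

theorem tl_diff {g : ℂ → ℂ} (hd : DifferentiableOn ℂ g (ball 0 1)) :
    ∀ n, DifferentiableOn ℂ (tl g n) (ball 0 1)
  | 0 => hd
  | n + 1 => (differentiableOn_dslope (ball_mem_nhds 0 one_pos)).2 (tl_diff hd n)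

theorem co_tl {g : ℂ → ℂ} (hd : DifferentiableOn ℂ g (ball 0 1)) :
    ∀ n k, co (tl g n) k = co g (k + n)
  | 0, _ => rfl
  | n + 1, k => by
    have := co_dslope (tl_diff hd n) (w := 0) (by simp) k
    rw [zero_mul, sub_zero, co_tl hd n] at this
    rw [tl, ← this, add_assoc, add_comm 1]

theorem co_zero (g : ℂ → ℂ) : co g 0 = g 0 := by simp [co]

theorem co_dslope_eq {g : ℂ → ℂ} (hd : DifferentiableOn ℂ g (ball 0 1)) {w : ℂ} (hw : ‖w‖ < 1)
    (h0 : w ≠ 0) : ∀ j, co (dslope g w) j = tl g (j + 1) w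
  | 0 => by
    rw [co_zero, tl, tl, dslope_of_ne _ h0, dslope_of_ne _ h0.symm, slope_comm]
  | j + 1 => by
    have h1 := co_dslope hd hw j
    have h2 := co_tl hd (j + 1) 0
    rw [co_dslope_eq hd hw h0 j] at h1
    rw [co_zero, zero_add] at h2
    rw [tl, dslope_of_ne _ h0, slope_def_field, h2, h1]
    field_simp
    ring

/-- reciprocal of the derivative -/
noncomputable def V (f : ℂ → ℂ) (z : ℂ) : ℂ := (deriv f z)⁻¹

/-- the regular part of `1 / (f w - f z)` as a function of `w` -/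
noncomputable def R (f : ℂ → ℂ) (z : ℂ) : ℂ → ℂ := dslope (fun w => (dslope f z w)⁻¹) z

variable {f : ℂ → ℂ} (hd : DifferentiableOn ℂ f (ball 0 1)) (hi : InjOn f (ball 0 1))
include hd hi

theorem V_diff : DifferentiableOn ℂ (V f) (ball 0 1) :=
  (hd.deriv isOpen_ball).inv fun _ hz => deriv_ne isOpen_ball hd hi hz

theorem R_diff {z : ℂ} (hz : ‖z‖ < 1) : DifferentiableOn ℂ (R f z) (ball 0 1) := by
  have hz' : z ∈ ball (0 : ℂ) 1 := mem_ball_zero_iff.2 hz
  have hn := isOpen_ball.mem_nhds hz'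
  refine (differentiableOn_dslope hn).2 (((differentiableOn_dslope hn).2 hd).inv fun w hw => ?_)
  by_cases h : w = z
  · rw [h, dslope_same]
    exact deriv_ne isOpen_ball hd hi hz'
  · rw [dslope_of_ne _ h, slope_def_field]
    exact div_ne_zero (sub_ne_zero.2 fun e => h (hi hw hz' e)) (sub_ne_zero.2 h)

omit hd hi in
theorem R_eq {z w : ℂ} (h : w ≠ z) : R f z w = (f w - f z)⁻¹ - V f z / (w - z) := by
  rw [R, dslope_of_ne _ h, slope_def_field, dslope_of_ne _ h, slope_def_field, dslope_same, V,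
    inv_div, sub_div]
  have := sub_ne_zero.2 h
  congr 1
  field_simp

theorem R_area {z : ℂ} (hz : ‖z‖ < 1) (s : Finset ℕ) :
    ∑ k ∈ s, (k : ℝ) * ‖co (R f z) k‖ ^ 2 ≤ ‖V f z‖ ^ 2 / (1 - ‖z‖ ^ 2) ^ 2 := by
  refine area_co (inv_ne_zero (deriv_ne isOpen_ball hd hi (mem_ball_zero_iff.2 hz))) hz
    (R_diff hd hi hz) (fun u hu v hv e => ?_) s
  simp only [R_eq hu.2, R_eq hv.2, V, add_sub_cancel, inv_inj, sub_left_inj] at e
  exact hi hu.1 hv.1 e

omit hd hi in
theorem circ_ne {ρ σ : ℝ} (hρ : 0 < ρ) (hσ : 0 < σ) (h : ρ ≠ σ) (α β : ℝ) :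
    circleMap 0 σ β ≠ circleMap 0 ρ α := fun e => by
  have := congrArg norm e
  simp only [norm_circleMap_zero, abs_of_pos hρ, abs_of_pos hσ] at this
  exact h this.symm

theorem R_cont {ρ σ : ℝ} (hρ : ρ ∈ Ioo (0 : ℝ) 1) (hσ : σ ∈ Ioo (0 : ℝ) 1) (h : ρ ≠ σ) :
    Continuous fun p : ℝ × ℝ => R f (circleMap 0 ρ p.1) (circleMap 0 σ p.2) := by
  simp only [R_eq (circ_ne hρ.1 hσ.1 h _ _)]
  have sb : ∀ {τ : ℝ}, τ ∈ Ioo (0 : ℝ) 1 → sphere (0 : ℂ) τ ⊆ ball 0 1 := fun hτ =>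
    sphere_subset_closedBall.trans (sub_ball hτ.2)
  have h1 := cont_circ hρ.1.le (hd.continuousOn.mono (sb hρ))
  have h2 := cont_circ hσ.1.le (hd.continuousOn.mono (sb hσ))
  have h3 := cont_circ hρ.1.le ((V_diff hd hi).continuousOn.mono (sb hρ))
  refine (((h2.comp continuous_snd).sub (h1.comp continuous_fst)).inv₀ fun p => ?_).sub
    ((h3.comp continuous_fst).div (by fun_prop) fun p => sub_ne_zero.2 (circ_ne hρ.1 hσ.1 h _ _))
  exact sub_ne_zero.2 fun e => circ_ne hρ.1 hσ.1 h _ _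
    (hi (sb hσ (circleMap_mem_sphere 0 hσ.1.le _)) (sb hρ (circleMap_mem_sphere 0 hρ.1.le _)) e)

omit hd hi in
theorem ex_ne (a b : ℝ) : ∃ σ ∈ Ioo (0 : ℝ) 1, a ≠ σ ∧ b ≠ σ := by
  obtain ⟨σ, h1, h2⟩ := (Ioo_infinite (zero_lt_one' ℝ)).exists_notMem_finset {a, b}
  simp only [Finset.mem_insert, Finset.mem_singleton, not_or] at h2
  exact ⟨σ, h1, Ne.symm h2.1, Ne.symm h2.2⟩

theorem coR_cont {ρ : ℝ} (hρ : ρ ∈ Ioo (0 : ℝ) 1) (k : ℕ) :
    Continuous fun α : ℝ => co (R f (circleMap 0 ρ α)) k := by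
  obtain ⟨σ, hσ, h, -⟩ := ex_ne ρ ρ
  have hσ' : (σ : ℂ) ^ k ≠ 0 := pow_ne_zero _ (by exact_mod_cast hσ.1.ne')
  refine ((fc_cont (K := fun α => R f (circleMap 0 ρ α)) (R_cont hd hi hρ hσ h) k).div_const
    ((σ : ℂ) ^ k)).congr fun α => ?_
  rw [fc_nat hσ.1 ((R_diff hd hi (by simpa [abs_of_pos hρ.1] using hρ.2)).mono (sub_ball hσ.2)),
    mul_div_cancel_right₀ _ hσ']

/-- double coefficients, computed on the circle of radius `ρ` -/
noncomputable def X (f : ℂ → ℂ) (ρ : ℝ) (j k : ℕ) : ℂ :=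
  fc (fun z => co (R f z) k) ρ j / (ρ : ℂ) ^ j

theorem X_add {ρ σ : ℝ} (hρ : ρ ∈ Ioo (0 : ℝ) 1) (hσ : σ ∈ Ioo (0 : ℝ) 1) (h : ρ ≠ σ) (j k : ℕ) :
    X f ρ j k + X f σ k j = co (V f) (k + (j + 1)) := by
  have hV := V_diff hd hi
  have e := fc_swap (R_cont hd hi hρ hσ h) j k
  have e1 : fc (fun z => fc (R f z) σ k) ρ j = (σ : ℂ) ^ k * fc (fun z => co (R f z) k) ρ j := by
    rw [← fc_const_mul]
    refine fc_congr hρ.1.le (fun z hz => ?_) _
    rw [fc_nat hσ.1 ((R_diff hd hi (hz ▸ hρ.2)).mono (sub_ball hσ.2)), mul_comm]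
  have e2 : fc (fun w => fc (fun z => R f z w) ρ j) σ k =
      (ρ : ℂ) ^ j * fc (fun w => tl (V f) (j + 1) w - co (R f w) j) σ k := by
    rw [← fc_const_mul]
    refine fc_congr hσ.1.le (fun w hw => ?_) _
    have hw1 : ‖w‖ < 1 := hw ▸ hσ.2
    have hs : DifferentiableOn ℂ (dslope (V f) w) (closedBall 0 ρ) :=
      ((differentiableOn_dslope (isOpen_ball.mem_nhds (mem_ball_zero_iff.2 hw1))).2 hV).mono
        (sub_ball hρ.2)
    have hR := (R_diff hd hi hw1).mono (sub_ball hρ.2)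
    rw [fc_congr (h := fun z => dslope (V f) w z - R f w z) hρ.1.le, fc_sub
      (cont_circ hρ.1.le (hs.continuousOn.mono sphere_subset_closedBall))
      (cont_circ hρ.1.le (hR.continuousOn.mono sphere_subset_closedBall)), fc_nat hρ.1 hs,
      fc_nat hρ.1 hR, co_dslope_eq hV hw1 (norm_pos_iff.1 (hw ▸ hσ.1))]
    · ring
    · intro z hz
      have hne : w ≠ z := fun e => h (by rw [← hz, ← hw, e])
      rw [R_eq hne, R_eq hne.symm, dslope_of_ne _ hne.symm, slope_def_field, ← neg_sub (f w),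
        ← neg_sub w z, inv_neg]
      have := sub_ne_zero.2 hne
      field_simp
      ring
  have ht := (tl_diff hV (j + 1)).mono (sub_ball hσ.2)
  rw [e1, e2, fc_sub (cont_circ hσ.1.le (ht.continuousOn.mono sphere_subset_closedBall))
    (coR_cont hd hi hσ j), fc_nat hσ.1 ht, co_tl hV] at e
  have hρ' : (ρ : ℂ) ^ j ≠ 0 := pow_ne_zero _ (by exact_mod_cast hρ.1.ne')
  have hσ' : (σ : ℂ) ^ k ≠ 0 := pow_ne_zero _ (by exact_mod_cast hσ.1.ne')
  rw [X, X]
  field_simp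
  linear_combination e

theorem main_ineq : ∃ r : ℕ → ℕ → ℂ, (∀ j k, r j k + r k j = co (V f) (j + k + 1)) ∧
    ∀ ρ ∈ Ioo (0 : ℝ) 1, ∀ s : Finset ℕ,
      ∑ k ∈ s, ∑ j ∈ s, (k : ℝ) * ‖r j k‖ ^ 2 * (ρ ^ 2) ^ j ≤ ms (V f) ρ / (1 - ρ ^ 2) ^ 2 := by
  have hh : (1 / 2 : ℝ) ∈ Ioo (0 : ℝ) 1 := by constructor <;> norm_num
  have hX : ∀ ρ ∈ Ioo (0 : ℝ) 1, ∀ j k, X f (1 / 2) j k = X f ρ j k := fun ρ hρ j k => by
    obtain ⟨σ, hσ, h1, h2⟩ := ex_ne (1 / 2) ρ
    linear_combination X_add hd hi hh hσ h1 j k - X_add hd hi hρ hσ h2 j k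
  refine ⟨X f (1 / 2), fun j k => ?_, fun ρ hρ s => ?_⟩
  · obtain ⟨σ, hσ, h1, -⟩ := ex_ne (1 / 2) (1 / 2)
    rw [hX σ hσ k j, X_add hd hi hh hσ h1, ← add_assoc, add_comm k]
  · have h1 : ∀ k : ℕ, ∑ j ∈ s, ‖X f (1 / 2) j k‖ ^ 2 * (ρ ^ 2) ^ j ≤
        ms (fun z => co (R f z) k) ρ := fun k => by
      have := sum_le_hasSum (s.map ⟨(↑), Nat.cast_injective (R := ℤ)⟩) (fun _ _ => by positivity)
        (parseval (g := fun z => co (R f z) k) (coR_cont hd hi hρ k))
      rw [Finset.sum_map] at this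
      refine le_of_eq_of_le (Finset.sum_congr rfl fun j _ => ?_) this
      have h0 := hρ.1
      rw [hX ρ hρ, X, norm_div, norm_pow, norm_real, Real.norm_eq_abs, abs_of_pos h0]
      simp only [Function.Embedding.coeFn_mk]
      field_simp
      ring
    have hV := cont_circ hρ.1.le ((V_diff hd hi).continuousOn.mono
      (sphere_subset_closedBall.trans (sub_ball hρ.2)))
    have hc : ∀ k : ℕ, Continuous fun α : ℝ => (k : ℝ) * ‖co (R f (circleMap 0 ρ α)) k‖ ^ 2 :=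
      fun k => continuous_const.mul ((coR_cont hd hi hρ k).norm.pow 2)
    calc _ ≤ ∑ k ∈ s, (k : ℝ) * ms (fun z => co (R f z) k) ρ := by
          refine Finset.sum_le_sum fun k _ => ?_
          simp only [mul_assoc, ← Finset.mul_sum]
          exact mul_le_mul_of_nonneg_left (h1 k) k.cast_nonneg
      _ = (1 / (2 * π)) * ∫ α in (0 : ℝ)..(2 * π),
            ∑ k ∈ s, (k : ℝ) * ‖co (R f (circleMap 0 ρ α)) k‖ ^ 2 := by
          rw [intervalIntegral.integral_finsetSum fun k _ => (hc k).intervalIntegrable _ _,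
            Finset.mul_sum]
          refine Finset.sum_congr rfl fun k _ => ?_
          rw [intervalIntegral.integral_const_mul, ms]
          ring
      _ ≤ (1 / (2 * π)) * ∫ α in (0 : ℝ)..(2 * π),
            ‖V f (circleMap 0 ρ α)‖ ^ 2 / (1 - ρ ^ 2) ^ 2 := by
          refine mul_le_mul_of_nonneg_left (intervalIntegral.integral_mono_on Real.two_pi_pos.le
            ((continuous_finsetSum _ fun k _ => hc k).intervalIntegrable _ _)
            (((hV.norm.pow 2).div_const _).intervalIntegrable _ _) fun α _ => ?_) (by positivity)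
          have hn : ‖circleMap 0 ρ α‖ = ρ := by simp [abs_of_pos hρ.1]
          have := R_area hd hi (z := circleMap 0 ρ α) (hn.symm ▸ hρ.2) s
          rwa [hn] at this
      _ = _ := by
          rw [intervalIntegral.integral_div, ms]
          ring

end Vale.Agent.P142
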