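import Vale.Agent.P142.Area

/-! The area theorem with a pole at an arbitrary point, in coefficient form. -/

open MeasureTheory Complex Set Metric Filter Topology
open scoped ComplexConjugate Real ENNReal

namespace Vale.Agent.P142

theorem deriv_ne {f : ℂ → ℂ} {U : Set ℂ} (hU : IsOpen U) (hd : DifferentiableOn ℂ f U)
    (hi : InjOn f U) {z : ℂ} (hz : z ∈ U) : deriv f z ≠ 0 := by
  intro h0
  have hUn : U ∈ 𝓝 z := hU.mem_nhds hz
  have ha : AnalyticAt ℂ (fun w => f w - f z) z := (hd.analyticAt hUn).sub analyticAt_const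
  have hne : ¬∀ᶠ w in 𝓝 z, f w - f z = 0 := fun h => by
    have h1 : ∀ᶠ w in 𝓝[≠] z, False := by
      filter_upwards [h.filter_mono nhdsWithin_le_nhds, nhdsWithin_le_nhds hUn,
        self_mem_nhdsWithin] with w h1 h2 h3
      exact h3 (hi h2 hz (sub_eq_zero.1 h1))
    exact h1.exists.elim fun _ => id
  obtain ⟨n, g, hg, hg0, e⟩ := ha.exists_eventuallyEq_pow_smul_nonzero_iff.2 hne
  have hn0 : n ≠ 0 := by
    rintro rfl
    have := e.self_of_nhds
    simp only [sub_self, pow_zero, one_smul] at this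
    exact hg0 this.symm
  have hn1 : n ≠ 1 := by
    rintro rfl
    have h1 : HasDerivAt (fun w => (w - z) ^ 1 • g w) (g z) z := by
      have := ((hasDerivAt_id z).sub_const z).mul hg.differentiableAt.hasDerivAt
      refine (this.congr_deriv (by simp)).congr_of_eventuallyEq (Eventually.of_forall fun x => ?_)
      simp
    have h2 : HasDerivAt (fun w => f w - f z) (deriv f z) z :=
      (hd.differentiableAt hUn).hasDerivAt.sub_const _
    have := (h1.congr_of_eventuallyEq e).unique h2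
    exact hg0 (this.trans h0)
  have hn : (n : ℂ) ≠ 0 := by exact_mod_cast hn0
  let k : ℂ → ℂ := fun w => (w - z) * exp (log (g w / g z) / n)
  have hk : AnalyticAt ℂ k z := by
    refine (analyticAt_id.sub analyticAt_const).mul (AnalyticAt.cexp' ?_)
    refine AnalyticAt.div_const (AnalyticAt.clog (hg.div_const) ?_)
    simp [div_self hg0]
  have hkz : k z = 0 := by simp [k]
  have hk2 : ∀ᶠ w in 𝓝 z, w ∈ U ∧ f w - f z = g z * k w ^ n := by
    filter_upwards [e, hUn, hg.continuousAt.eventually_ne hg0] with w h1 h2 h3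
    refine ⟨h2, ?_⟩
    rw [h1]
    simp only [k, mul_pow, ← exp_nat_mul, smul_eq_mul]
    rw [mul_div_cancel₀ _ hn, exp_log (div_ne_zero h3 hg0)]
    field_simp
  rcases hk.eventually_constant_or_nhds_le_map_nhds with h | h
  · have h1 : ∀ᶠ w in 𝓝[≠] z, False := by
      filter_upwards [h.filter_mono nhdsWithin_le_nhds, self_mem_nhdsWithin] with w h1 h3
      rw [hkz] at h1
      exact mul_ne_zero (sub_ne_zero.2 h3) (exp_ne_zero _) h1
    exact h1.exists.elim fun _ => id
  · rw [hkz] at h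
    have h1 := h (image_mem_map hk2)
    have hζ := isPrimitiveRoot_exp n hn0
    set ζ := exp (2 * π * I / n)
    have h2 : ∀ᶠ t in 𝓝 (0 : ℂ), ζ * t ∈ k '' {w | w ∈ U ∧ f w - f z = g z * k w ^ n} := by
      have : Tendsto (fun t => ζ * t) (𝓝 0) (𝓝 0) := by
        simpa using (continuous_const_mul ζ).tendsto 0
      exact this h1
    have h3 : ∀ᶠ t in 𝓝[≠] (0 : ℂ), False := by
      filter_upwards [nhdsWithin_le_nhds h1, h2.filter_mono nhdsWithin_le_nhds,
        self_mem_nhdsWithin] with t ⟨a, ha, ea⟩ ⟨b, hb, eb⟩ ht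
      have : f a = f b := by
        have := ha.2.trans (show g z * k a ^ n = f b - f z by
          rw [hb.2, ea, eb, mul_pow, hζ.pow_eq_one, one_mul])
        simpa using this
      rw [hi ha.1 hb.1 this, eb] at ea
      refine hζ.ne_one (by omega) (mul_right_cancel₀ ht ?_)
      rw [ea, one_mul]
    exact h3.exists.elim fun _ => id

/-- the disc automorphism sending `0` to `a` -/
noncomputable def mob (a u : ℂ) : ℂ := (u + a) / (1 + conj a * u)

theorem mob_den {a u : ℂ} (ha : ‖a‖ < 1) (hu : ‖u‖ < 1) : 1 + conj a * u ≠ 0 := fun h => by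
  have h1 : conj a * u = -1 := by linear_combination h
  have h2 := congrArg norm h1
  rw [norm_mul, norm_conj, norm_neg, norm_one] at h2
  nlinarith [norm_nonneg a, norm_nonneg u]

theorem norm_mob {a u : ℂ} (ha : ‖a‖ < 1) (hu : ‖u‖ < 1) : ‖mob a u‖ < 1 := by
  rw [mob, norm_div, div_lt_one (norm_pos_iff.2 (mob_den ha hu)),
    ← sq_lt_sq₀ (norm_nonneg _) (norm_nonneg _)]
  have h1 : ‖a‖ ^ 2 < 1 := by nlinarith [norm_nonneg a]
  have h2 : ‖u‖ ^ 2 < 1 := by nlinarith [norm_nonneg u]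
  rw [← normSq_eq_norm_sq, normSq_apply] at *
  rw [← normSq_eq_norm_sq, normSq_apply]
  simp only [add_re, add_im, mul_re, mul_im, conj_re, conj_im, one_re, one_im]
  nlinarith [mul_pos (sub_pos.2 h1) (sub_pos.2 h2)]

theorem den2 {a : ℂ} (ha : ‖a‖ < 1) : 1 - conj a * a ≠ 0 := by
  have := mob_den ha (u := -a) (by simpa using ha)
  rwa [mul_neg, ← sub_eq_add_neg] at this

theorem mob_mob {a u : ℂ} (ha : ‖a‖ < 1) (hu : ‖u‖ < 1) : mob a (mob (-a) u) = u := by
  have h1 := mob_den ha (norm_mob (a := -a) (by simpa using ha) hu)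
  have h2 := mob_den (a := -a) (by simpa using ha) hu
  rw [mob, div_eq_iff h1, mob]
  generalize hD : 1 + conj (-a) * u = D at h2
  rw [map_neg] at hD
  field_simp
  rw [← hD]
  ring

theorem mob_sub {a u : ℂ} (ha : ‖a‖ < 1) (hu : ‖u‖ < 1) :
    mob a u - a = u * (1 - conj a * a) / (1 + conj a * u) := by
  have := mob_den ha hu
  rw [mob, eq_div_iff this, sub_mul, div_mul_cancel₀ _ this]
  ring

theorem area_pole {h : ℂ → ℂ} {c z : ℂ} (hc : c ≠ 0) (hz : ‖z‖ < 1)
    (hd : DifferentiableOn ℂ h (ball 0 1))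
    (hi : InjOn (fun w => c / (w - z) + h w) (ball 0 1 \ {z})) :
    dir h (ball 0 1) ≤ ENNReal.ofReal (π * (‖c‖ ^ 2 / (1 - ‖z‖ ^ 2) ^ 2)) := by
  have hz' : ‖-z‖ < 1 := by simpa using hz
  have hm : ∀ u ∈ ball (0 : ℂ) 1, mob z u ∈ ball (0 : ℂ) 1 := fun u hu =>
    mem_ball_zero_iff.2 (norm_mob hz (mem_ball_zero_iff.1 hu))
  have hmd : ∀ u ∈ ball (0 : ℂ) 1, DifferentiableAt ℂ (mob z) u := fun u hu =>
    DifferentiableAt.div (by fun_prop) (by fun_prop) (mob_den hz (mem_ball_zero_iff.1 hu))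
  have hmi : InjOn (mob z) (ball 0 1) := fun u hu v hv e => by
    have h1 := mob_mob hz' (mem_ball_zero_iff.1 hu)
    have h2 := mob_mob hz' (mem_ball_zero_iff.1 hv)
    rw [neg_neg] at h1 h2
    rw [← h1, e, h2]
  have him : mob z '' ball 0 1 = ball 0 1 := by
    refine Subset.antisymm (image_subset_iff.2 hm) fun w hw => ?_
    exact ⟨mob (-z) w, mem_ball_zero_iff.2 (norm_mob hz' (mem_ball_zero_iff.1 hw)),
      mob_mob hz (mem_ball_zero_iff.1 hw)⟩
  have hda : ∀ u ∈ ball (0 : ℂ) 1, DifferentiableAt ℂ h u := fun u hu =>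
    hd.differentiableAt (isOpen_ball.mem_nhds hu)
  have hd2 := den2 hz
  set c' := c / (1 - conj z * z) with hc'
  have key := area0 (h := fun u => h (mob z u) + c' * conj z) (c := c') (div_ne_zero hc hd2)
    (fun u hu => (((hda _ (hm u hu)).comp u (hmd u hu)).add_const _).differentiableWithinAt) ?_
  · have e1 : dir h (ball 0 1) = dir (fun u => h (mob z u) + c' * conj z) (ball 0 1) := by
      rw [dir, dir]
      nth_rewrite 1 [← him]
      rw [cov measurableSet_ball hmd hmi]
      refine setLIntegral_congr_fun measurableSet_ball fun u hu => ?_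
      have : deriv (fun u => h (mob z u) + c' * conj z) u = deriv h (mob z u) * deriv (mob z) u :=
        (((hda _ (hm u hu)).hasDerivAt.comp u (hmd u hu).hasDerivAt).add_const _).deriv
      rw [this, ← ENNReal.ofReal_mul (by positivity), norm_mul]
      congr 1
      ring
    have e2 : ‖c'‖ ^ 2 = ‖c‖ ^ 2 / (1 - ‖z‖ ^ 2) ^ 2 := by
      rw [hc', conj_mul', norm_div, div_pow]
      congr 1
      rw [show (1 : ℂ) - (‖z‖ : ℂ) ^ 2 = ((1 - ‖z‖ ^ 2 : ℝ) : ℂ) by push_cast; ring, norm_real,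
        Real.norm_eq_abs, sq_abs]
    rwa [e1, ← e2]
  · have e : ∀ u ∈ ball (0 : ℂ) 1 \ {0}, mob z u ∈ ball (0 : ℂ) 1 \ {z} ∧
        c' / u + (h (mob z u) + c' * conj z) = c / (mob z u - z) + h (mob z u) := fun u hu => by
      have h1 := mob_sub hz (mem_ball_zero_iff.1 hu.1)
      have h2 := mob_den hz (mem_ball_zero_iff.1 hu.1)
      have h3 : u ≠ 0 := hu.2
      refine ⟨⟨hm u hu.1, fun h4 => ?_⟩, ?_⟩
      · rw [mem_singleton_iff.1 h4, sub_self] at h1
        exact div_ne_zero (mul_ne_zero h3 hd2) h2 h1.symm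
      · rw [h1, hc']
        field_simp
        ring
    intro u hu v hv huv
    simp only [(e u hu).2, (e v hv).2] at huv
    exact hmi hu.1 hv.1 (hi (e u hu).1 (e v hv).1 huv)

theorem dir_ge {g : ℂ → ℂ} (hd : DifferentiableOn ℂ g (ball 0 1)) (s : Finset ℕ) :
    ENNReal.ofReal (π * ∑ k ∈ s, (k + 1 : ℝ) * ‖co g (k + 1)‖ ^ 2) ≤ dir g (ball 0 1) := by
  have hd' : DifferentiableOn ℂ (deriv g) (ball 0 1) := hd.deriv isOpen_ball
  refine le_trans ?_ (lintegral_mono_set (sdiff_subset (t := closedBall 0 0)))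
  refine le_trans ?_ (dir_polar le_rfl fun ρ hρ =>
    hd'.continuousOn.mono (sphere_subset_closedBall.trans (sub_ball hρ.2))).ge
  let P : ℝ → ℝ := fun ρ => ∑ k ∈ s, 2 * π * ‖co (deriv g) k‖ ^ 2 * ρ ^ (2 * k + 1)
  have hP : Continuous P := by fun_prop
  have e : ∫⁻ ρ in Ioo 0 1, ENNReal.ofReal (P ρ) =
      ENNReal.ofReal (π * ∑ k ∈ s, (k + 1 : ℝ) * ‖co g (k + 1)‖ ^ 2) := by
    rw [← ofReal_integral_eq_lintegral_ofReal, ← integral_Ioc_eq_integral_Ioo,
      ← intervalIntegral.integral_of_le zero_le_one, intervalIntegral.integral_finsetSum,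
      Finset.mul_sum]
    · congr 1
      refine Finset.sum_congr rfl fun k _ => ?_
      rw [intervalIntegral.integral_const_mul, integral_pow, co_deriv, norm_mul]
      have : ‖(k : ℂ) + 1‖ = k + 1 := by exact_mod_cast norm_natCast (α := ℂ) (k + 1)
      rw [this]
      push_cast
      simp only [one_pow, ne_eq, Nat.add_eq_zero_iff, one_ne_zero, and_false, not_false_eq_true,
        zero_pow, sub_zero]
      field_simp
      ring
    · exact fun k _ => (by fun_prop : Continuous _).intervalIntegrable _ _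
    · exact (intervalIntegrable_iff_integrableOn_Ioo_of_le zero_le_one).1
        (hP.intervalIntegrable _ _)
    · filter_upwards [ae_restrict_mem measurableSet_Ioo] with x hx
      have := hx.1
      exact Finset.sum_nonneg fun k _ => by positivity
  rw [← e]
  refine setLIntegral_mono' measurableSet_Ioo fun ρ hρ => ENNReal.ofReal_le_ofReal ?_
  have h1 := sum_le_hasSum s (fun k _ => by positivity) (parseval_co hρ.1 (hd'.mono (sub_ball hρ.2)))
  have h2 := hρ.1
  calc P ρ = ρ * (2 * π * ∑ k ∈ s, ‖co (deriv g) k‖ ^ 2 * (ρ ^ 2) ^ k) := by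
        simp only [P, Finset.mul_sum]
        exact Finset.sum_congr rfl fun k _ => by ring
    _ ≤ _ := by gcongr

theorem area_co {h : ℂ → ℂ} {c z : ℂ} (hc : c ≠ 0) (hz : ‖z‖ < 1)
    (hd : DifferentiableOn ℂ h (ball 0 1))
    (hi : InjOn (fun w => c / (w - z) + h w) (ball 0 1 \ {z})) (s : Finset ℕ) :
    ∑ k ∈ s, (k : ℝ) * ‖co h k‖ ^ 2 ≤ ‖c‖ ^ 2 / (1 - ‖z‖ ^ 2) ^ 2 := by
  obtain ⟨N, hN⟩ := s.exists_nat_subset_range
  have h1 := (dir_ge hd (Finset.range N)).trans (area_pole hc hz hd hi)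
  rw [ENNReal.ofReal_le_ofReal_iff (by positivity), mul_le_mul_iff_right₀ Real.pi_pos] at h1
  refine le_trans ?_ h1
  calc _ ≤ ∑ k ∈ Finset.range (N + 1), (k : ℝ) * ‖co h k‖ ^ 2 :=
        Finset.sum_le_sum_of_subset_of_nonneg
          (hN.trans (Finset.range_subset_range.2 (Nat.le_succ N))) fun _ _ _ => by positivity
    _ = _ := by rw [Finset.sum_range_succ']; simp

end Vale.Agent.P142
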