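import Vale.Agent.P142.Basic

/-! The area theorem. -/

open MeasureTheory Complex Set Metric Filter Topology
open scoped ComplexConjugate Real ENNReal

namespace Vale.Agent.P142

/-- the real-linear map `h ↦ a h + b (conj h)` -/
noncomputable def wl (a b : ℂ) : ℂ →L[ℝ] ℂ :=
  a • (ContinuousLinearMap.id ℝ ℂ) + b • (conjCLE : ℂ →L[ℝ] ℂ)

@[simp] theorem wl_apply (a b h : ℂ) : wl a b h = a * h + b * conj h := by simp [wl]

theorem det_wl (a b : ℂ) : (wl a b).det = ‖a‖ ^ 2 - ‖b‖ ^ 2 := by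
  rw [ContinuousLinearMap.det, ← LinearMap.det_toMatrix basisOneI, Matrix.det_fin_two,
    ← normSq_eq_norm_sq, ← normSq_eq_norm_sq, normSq_apply, normSq_apply]
  simp [LinearMap.toMatrix_apply]
  ring

theorem hasF {g : ℂ → ℂ} {a z : ℂ} (h : HasDerivAt g a z) : HasFDerivAt g (wl a 0) z := by
  refine (h.hasFDerivAt.restrictScalars ℝ).congr_fderiv ?_
  ext x
  simp [mul_comm]

theorem cov {φ : ℂ → ℂ} {S : Set ℂ} (hS : MeasurableSet S)
    (hd : ∀ z ∈ S, DifferentiableAt ℂ φ z) (hi : InjOn φ S) (G : ℂ → ℝ≥0∞) :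
    ∫⁻ w in φ '' S, G w = ∫⁻ u in S, ENNReal.ofReal (‖deriv φ u‖ ^ 2) * G (φ u) := by
  rw [lintegral_image_eq_lintegral_abs_det_fderiv_mul volume hS
    (f' := fun u => wl (deriv φ u) 0) (fun z hz => (hasF (hd z hz).hasDerivAt).hasFDerivWithinAt) hi]
  simp [det_wl]

/-- inversion of the outside of the disc of radius `ε` into the disc -/
noncomputable def rf (ε : ℝ) (u : ℂ) : ℂ := if ‖u‖ ≤ ε then u else (ε : ℂ) ^ 2 / conj u

theorem norm_rf {ε : ℝ} (hε : 0 < ε) (u : ℂ) : ‖rf ε u‖ ≤ ε := by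
  unfold rf
  split_ifs with h
  · exact h
  · have h' : ε < ‖u‖ := not_le.1 h
    rw [norm_div, norm_pow, norm_real, Real.norm_eq_abs, abs_of_pos hε, norm_conj,
      div_le_iff₀ (hε.trans h')]
    nlinarith

theorem rf_mixed {ε : ℝ} (hε : 0 < ε) {u v : ℂ} (hu : ‖u‖ ≤ ε) (hv : ε < ‖v‖) :
    ‖u - (ε : ℂ) ^ 2 / conj v‖ ≤ ‖u - v‖ := by
  have hv0 : 0 < ‖v‖ := hε.trans hv
  have hv1 : v ≠ 0 := norm_pos_iff.1 hv0
  set s : ℝ := ε ^ 2 / ‖v‖ ^ 2 with hs
  have e : (ε : ℂ) ^ 2 / conj v = s * v := by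
    have : conj v ≠ 0 := by simpa using hv1
    have h2 : (‖v‖ : ℂ) ≠ 0 := by exact_mod_cast hv0.ne'
    rw [hs]
    push_cast
    field_simp
    rw [mul_assoc, conj_mul', mul_comm]
  have hs1 : s ≤ 1 := by
    rw [hs, div_le_one (by positivity)]
    nlinarith
  have hsv : s * ‖v‖ ^ 2 = ε ^ 2 := by rw [hs]; field_simp
  have hre : u.re * v.re + u.im * v.im ≤ ε * ‖v‖ := by
    have h1 : (u * conj v).re ≤ ‖u * conj v‖ := re_le_norm _
    rw [norm_mul, norm_conj] at h1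
    have h2 : (u * conj v).re = u.re * v.re + u.im * v.im := by simp
    nlinarith
  have hvv : ‖v‖ ^ 2 = v.re * v.re + v.im * v.im := by rw [← normSq_eq_norm_sq, normSq_apply]
  rw [e, ← sq_le_sq₀ (norm_nonneg _) (norm_nonneg _), ← normSq_eq_norm_sq, ← normSq_eq_norm_sq,
    normSq_apply, normSq_apply]
  simp only [sub_re, sub_im, mul_re, mul_im, ofReal_re, ofReal_im, zero_mul, sub_zero, add_zero]
  have key : 0 ≤ (1 - s) * ((1 + s) * (v.re * v.re + v.im * v.im) -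
      2 * (u.re * v.re + u.im * v.im)) := by
    refine mul_nonneg (by linarith) ?_
    rw [← hvv]
    nlinarith [sq_nonneg (‖v‖ - ε)]
  nlinarith

theorem rf_lip {ε : ℝ} (hε : 0 < ε) (u v : ℂ) : ‖rf ε u - rf ε v‖ ≤ ‖u - v‖ := by
  unfold rf
  split_ifs with h1 h2 h2
  · exact le_rfl
  · exact rf_mixed hε h1 (not_le.1 h2)
  · rw [norm_sub_rev, norm_sub_rev u]
    exact rf_mixed hε h2 (not_le.1 h1)
  · have hu : ε < ‖u‖ := not_le.1 h1
    have hv : ε < ‖v‖ := not_le.1 h2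
    have hu0 : conj u ≠ 0 := by simpa using norm_pos_iff.1 (hε.trans hu)
    have hv0 : conj v ≠ 0 := by simpa using norm_pos_iff.1 (hε.trans hv)
    have e : (ε : ℂ) ^ 2 / conj u - (ε : ℂ) ^ 2 / conj v =
        (ε : ℂ) ^ 2 * conj (v - u) / (conj u * conj v) := by
      rw [map_sub]; field_simp
    rw [e, norm_div, norm_mul, norm_mul, norm_conj, norm_conj, norm_conj, norm_pow, norm_real,
      Real.norm_eq_abs, abs_of_pos hε, norm_sub_rev,
      div_le_iff₀ (mul_pos (hε.trans hu) (hε.trans hv))]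
    have : ε ^ 2 ≤ ‖u‖ * ‖v‖ := by nlinarith
    nlinarith [norm_nonneg (u - v)]

theorem cover {h : ℂ → ℂ} {c : ℂ} (hc : c ≠ 0) {ε L : ℝ} (hε : 0 < ε) (hL0 : 0 ≤ L)
    (hL : ∀ u v : ℂ, ‖u‖ ≤ ε → ‖v‖ ≤ ε → ‖h u - h v‖ ≤ L * ‖u - v‖)
    (hs : ε ^ 2 * L / ‖c‖ < 1) (ω : ℂ) :
    (∃ u, ‖u‖ ≤ ε ∧ h u + c / (ε : ℂ) ^ 2 * conj u = ω) ∨
      ∃ w, ‖w‖ ≤ ε ∧ w ≠ 0 ∧ c / w + h w = ω := by
  have hc0 : 0 < ‖c‖ := norm_pos_iff.2 hc
  have hε' : (ε : ℂ) ≠ 0 := by exact_mod_cast hε.ne'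
  let T : ℂ → ℂ := fun u => conj ((ε : ℂ) ^ 2 * (ω - h (rf ε u)) / c)
  have hT : ContractingWith ⟨ε ^ 2 * L / ‖c‖, by positivity⟩ T := by
    refine ⟨hs, LipschitzWith.of_dist_le_mul fun u v => ?_⟩
    rw [dist_eq_norm, dist_eq_norm]
    have e : T u - T v = conj ((ε : ℂ) ^ 2 * (h (rf ε v) - h (rf ε u)) / c) := by
      simp only [T, ← map_sub]
      congr 1
      ring
    rw [e, norm_conj, norm_div, norm_mul, norm_pow, norm_real, Real.norm_eq_abs, abs_of_pos hε]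
    have h1 := hL _ _ (norm_rf hε v) (norm_rf hε u)
    have h2 := rf_lip hε v u
    rw [norm_sub_rev v] at h2
    have h3 : ‖h (rf ε v) - h (rf ε u)‖ ≤ L * ‖u - v‖ := h1.trans (by gcongr)
    change _ ≤ ε ^ 2 * L / ‖c‖ * _
    calc _ ≤ ε ^ 2 * (L * ‖u - v‖) / ‖c‖ := by gcongr
      _ = _ := by ring
  have hf := hT.fixedPoint_isFixedPt
  set u := ContractingWith.fixedPoint T hT
  have e : conj u = (ε : ℂ) ^ 2 * (ω - h (rf ε u)) / c := by
    have : T u = u := hf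
    have h2 := congrArg conj this
    simp only [T, conj_conj] at h2
    exact h2.symm
  have e2 : h (rf ε u) + c / (ε : ℂ) ^ 2 * conj u = ω := by
    rw [e]; field_simp; ring
  by_cases hu : ‖u‖ ≤ ε
  · left
    refine ⟨u, hu, ?_⟩
    rwa [rf, if_pos hu] at e2
  · right
    have hu0 : conj u ≠ 0 := by simpa using norm_pos_iff.1 (hε.trans (not_le.1 hu))
    refine ⟨rf ε u, norm_rf hε u, ?_, ?_⟩
    · rw [rf, if_neg hu]
      exact div_ne_zero (pow_ne_zero _ hε') hu0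
    · rw [← e2, add_comm]
      congr 1
      rw [rf, if_neg hu]
      field_simp

theorem ms_pole {g : ℂ → ℂ} {ρ : ℝ} (hρ : 0 < ρ) (hg : DifferentiableOn ℂ g (closedBall 0 ρ))
    (c : ℂ) : ms (fun w => -c / w ^ 2 + g w) ρ = ‖c‖ ^ 2 / ρ ^ 4 + ms g ρ := by
  have hc := cont_circ hρ.le (hg.continuousOn.mono sphere_subset_closedBall)
  have hρ' : (ρ : ℂ) ≠ 0 := by exact_mod_cast hρ.ne'
  have h0 := fc_neg hρ hg (n := -2) (by norm_num)
  have hπ : (1 / (2 * π) : ℂ) ≠ 0 := by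
    have := Real.pi_ne_zero
    simp [this]
  rw [fc, mul_eq_zero, or_iff_right hπ] at h0
  set K : ℝ → ℂ := fun θ => exp (-(((-2 : ℤ) : ℂ) * θ * I)) * g (circleMap 0 ρ θ) with hK
  have hKc : Continuous K := Continuous.mul (by fun_prop) hc
  have e : ∀ θ : ℝ, ‖-c / circleMap 0 ρ θ ^ 2 + g (circleMap 0 ρ θ)‖ ^ 2 =
      ‖c‖ ^ 2 / ρ ^ 4 + ‖g (circleMap 0 ρ θ)‖ ^ 2 + 2 * (-conj c / ρ ^ 2 * K θ).re := fun θ => by
    rw [← normSq_eq_norm_sq, normSq_add, normSq_eq_norm_sq, normSq_eq_norm_sq, ← conj_re, map_mul,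
      conj_conj]
    congr 2
    · simp [abs_of_pos hρ, div_pow, ← pow_mul]
    · congr 1
      simp only [hK, circleMap_zero, map_div₀, map_neg, map_pow, map_mul, conj_ofReal, ← exp_conj,
        conj_I, mul_pow, ← exp_nat_mul, map_natCast]
      rw [show (((2 : ℕ) : ℂ) * (θ * -I)) = -(-(((-2 : ℤ) : ℂ) * θ * I)) by push_cast; ring,
        exp_neg]
      have := exp_ne_zero (-(((-2 : ℤ) : ℂ) * θ * I))
      field_simp
  have i1 : IntervalIntegrable (fun θ => ‖g (circleMap 0 ρ θ)‖ ^ 2) volume 0 (2 * π) :=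
    (hc.norm.pow 2).intervalIntegrable _ _
  have i2 : IntervalIntegrable (fun θ => -conj c / ρ ^ 2 * K θ) volume 0 (2 * π) :=
    (continuous_const.mul hKc).intervalIntegrable _ _
  have i3 : ∫ θ in (0 : ℝ)..(2 * π), (-conj c / ρ ^ 2 * K θ).re = 0 := by
    have := reCLM.intervalIntegral_comp_comm i2
    simp only [reCLM_apply] at this
    rw [this, intervalIntegral.integral_const_mul, h0]
    simp
  have i4 : IntervalIntegrable (fun θ => 2 * (-conj c / ρ ^ 2 * K θ).re) volume 0 (2 * π) :=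
    (continuous_const.mul (continuous_re.comp (continuous_const.mul hKc))).intervalIntegrable _ _
  simp only [ms, e]
  rw [intervalIntegral.integral_add (intervalIntegrable_const.add i1) i4,
    intervalIntegral.integral_add intervalIntegrable_const i1, intervalIntegral.integral_const_mul,
    i3]
  have := Real.pi_ne_zero
  simp only [intervalIntegral.integral_const, sub_zero, smul_eq_mul]
  field_simp
  ring

/-- Dirichlet integral -/
noncomputable def dir (g : ℂ → ℂ) (S : Set ℂ) : ℝ≥0∞ :=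
  ∫⁻ w in S, ENNReal.ofReal (‖deriv g w‖ ^ 2)

theorem meas_d (g : ℂ → ℂ) : Measurable fun w => ENNReal.ofReal (‖deriv g w‖ ^ 2) :=
  ENNReal.measurable_ofReal.comp ((measurable_deriv g).norm.pow_const 2)

theorem sub_ball {ρ : ℝ} (h : ρ < 1) : closedBall (0 : ℂ) ρ ⊆ ball 0 1 := closedBall_subset_ball h

theorem dir_polar {g : ℂ → ℂ} {a : ℝ} (ha : 0 ≤ a)
    (hg : ∀ ρ ∈ Ioo a 1, ContinuousOn (deriv g) (sphere 0 ρ)) :
    dir g (ball 0 1 \ closedBall 0 a) =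
      ∫⁻ ρ in Ioo a 1, ENNReal.ofReal (ρ * (2 * π * ms (deriv g) ρ)) := by
  rw [dir, polar (meas_d g) ha]
  refine setLIntegral_congr_fun measurableSet_Ioo fun ρ hρ => ?_
  have : 0 ≤ ρ := ha.trans hρ.1.le
  rw [lint_ms this (hg ρ hρ), ← ENNReal.ofReal_mul this]

theorem area_ann {h : ℂ → ℂ} {c : ℂ} (hc : c ≠ 0) (hd : DifferentiableOn ℂ h (ball 0 1))
    (hi : InjOn (fun w => c / w + h w) (ball 0 1 \ {0})) {ε L : ℝ} (hε : 0 < ε) (hε1 : ε < 1)
    (hL : ∀ u : ℂ, ‖u‖ ≤ ε → ‖deriv h u‖ ≤ L) (hs : ε ^ 2 * L / ‖c‖ < 1) :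
    dir h (ball 0 1 \ closedBall 0 ε) ≤ ENNReal.ofReal (π * ‖c‖ ^ 2) := by
  have hc0 : 0 < ‖c‖ := norm_pos_iff.2 hc
  have hL0 : 0 ≤ L := (norm_nonneg _).trans (hL 0 (by simp [hε.le]))
  have hda : ∀ u : ℂ, ‖u‖ < 1 → DifferentiableAt ℂ h u := fun u hu =>
    hd.differentiableAt (isOpen_ball.mem_nhds (mem_ball_zero_iff.2 hu))
  have hd' : DifferentiableOn ℂ (deriv h) (ball 0 1) := hd.deriv isOpen_ball
  have hLip : ∀ u v : ℂ, ‖u‖ ≤ ε → ‖v‖ ≤ ε → ‖h u - h v‖ ≤ L * ‖u - v‖ := fun u v hu hv =>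
    (convex_closedBall (0 : ℂ) ε).norm_image_sub_le_of_norm_deriv_le
      (fun x hx => hda x ((mem_closedBall_zero_iff.1 hx).trans_lt hε1))
      (fun x hx => hL x (mem_closedBall_zero_iff.1 hx)) (mem_closedBall_zero_iff.2 hv)
      (mem_closedBall_zero_iff.2 hu)
  set F : ℂ → ℂ := fun w => c / w + h w with hF
  set A : Set ℂ := ball 0 1 \ closedBall 0 ε with hA
  have hAm : MeasurableSet A := measurableSet_ball.diff measurableSet_closedBall
  have hA1 : ∀ w ∈ A, ε < ‖w‖ ∧ ‖w‖ < 1 := fun w hw => by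
    simpa [hA, and_comm] using hw
  have hA2 : A ⊆ ball 0 1 \ {0} := fun w hw =>
    ⟨hw.1, fun h0 => by have := (hA1 w hw).1; rw [h0] at this; simp at this; linarith⟩
  have hFd : ∀ w : ℂ, w ≠ 0 → ‖w‖ < 1 → HasDerivAt F (-c / w ^ 2 + deriv h w) w := fun w h0 h1 => by
    refine HasDerivAt.add ?_ (hda w h1).hasDerivAt
    have := (hasDerivAt_inv h0).const_mul c
    refine (this.congr_deriv (by ring)).congr_of_eventuallyEq (Eventually.of_forall fun x => ?_)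
    exact div_eq_mul_inv c x
  let Ψ : ℂ → ℂ := fun u => h u + c / (ε : ℂ) ^ 2 * conj u
  have hsub : F '' A ⊆ Ψ '' closedBall 0 ε := by
    rintro _ ⟨w, hw, rfl⟩
    rcases cover hc hε hL0 hLip hs (F w) with ⟨u, hu, e⟩ | ⟨v, hv, hv0, e⟩
    · exact ⟨u, mem_closedBall_zero_iff.2 hu, e⟩
    · have := hi ⟨mem_ball_zero_iff.2 (hv.trans_lt hε1), hv0⟩ (hA2 hw) e
      rw [this] at hv
      exact absurd (hA1 w hw).1 (not_lt.2 hv)
  have hΨ : volume (Ψ '' closedBall 0 ε) ≤ ENNReal.ofReal (π * ‖c‖ ^ 2 / ε ^ 2) := by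
    refine (addHaar_image_le_lintegral_abs_det_fderiv volume measurableSet_closedBall
      (f' := fun u => wl (deriv h u) (c / (ε : ℂ) ^ 2)) fun u hu => ?_).trans ?_
    · have h1 := hasF (hda u ((mem_closedBall_zero_iff.1 hu).trans_lt hε1)).hasDerivAt
      have h2 := (wl 0 (c / (ε : ℂ) ^ 2)).hasFDerivAt (x := u)
      refine ((h1.add h2).congr_fderiv ?_).hasFDerivWithinAt.congr (fun x _ => ?_) ?_
      · ext x
        simp
      · simp [Ψ]
      · simp [Ψ]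
    · refine (setLIntegral_mono' (g := fun _ => ENNReal.ofReal (‖c‖ ^ 2 / ε ^ 4))
        measurableSet_closedBall fun u hu => ENNReal.ofReal_le_ofReal ?_).trans ?_
      · rw [det_wl]
        have h1 := hL u (mem_closedBall_zero_iff.1 hu)
        have h2 : L ≤ ‖c‖ / ε ^ 2 := by
          rw [div_lt_one hc0] at hs
          rw [le_div_iff₀ (by positivity)]
          linarith
        have h3 : ‖c / (ε : ℂ) ^ 2‖ ^ 2 = ‖c‖ ^ 2 / ε ^ 4 := by
          simp [abs_of_pos hε, div_pow, ← pow_mul]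
        have h4 : ‖deriv h u‖ ^ 2 ≤ ‖c‖ ^ 2 / ε ^ 4 := by
          calc _ ≤ (‖c‖ / ε ^ 2) ^ 2 := by gcongr; exact h1.trans h2
            _ = _ := by rw [div_pow, ← pow_mul]
        rw [h3, abs_le]
        constructor <;> nlinarith [sq_nonneg ‖deriv h u‖]
      · rw [setLIntegral_const, volume_closedBall, ← ENNReal.ofReal_pow hε.le,
          ← ENNReal.ofReal_coe_nnreal, ← ENNReal.ofReal_mul (by positivity),
          ← ENNReal.ofReal_mul (by positivity)]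
        refine ENNReal.ofReal_le_ofReal (le_of_eq ?_)
        simp only [NNReal.coe_real_pi]
        field_simp
  have hvol : volume (F '' A) = dir F A := by
    have := cov hAm (fun w hw => (hFd w (hA2 hw).2 (hA1 w hw).2).differentiableAt) (hi.mono hA2)
      (fun _ => 1)
    simpa [dir] using this
  have hsph : ∀ ρ ∈ Ioo ε 1, ∀ w ∈ sphere (0 : ℂ) ρ, deriv F w = -c / w ^ 2 + deriv h w := by
    intro ρ hρ w hw
    have hw' : ‖w‖ = ρ := mem_sphere_zero_iff_norm.1 hw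
    exact (hFd w (norm_pos_iff.1 (hw' ▸ hε.trans hρ.1)) (hw' ▸ hρ.2)).deriv
  have hch : ∀ ρ ∈ Ioo ε 1, ContinuousOn (deriv h) (sphere 0 ρ) := fun ρ hρ =>
    hd'.continuousOn.mono (sphere_subset_closedBall.trans (sub_ball hρ.2))
  have hint : ∫⁻ ρ in Ioo ε 1, ENNReal.ofReal (2 * π * ‖c‖ ^ 2 * ρ ^ (-3 : ℤ)) =
      ENNReal.ofReal (π * ‖c‖ ^ 2 / ε ^ 2 - π * ‖c‖ ^ 2) := by
    have h0 : (0 : ℝ) ∉ uIcc ε 1 := by
      rw [uIcc_of_le hε1.le]
      exact fun h => absurd h.1 (not_le.2 hε)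
    have hi := (intervalIntegral.intervalIntegrable_zpow (μ := volume) (n := -3)
      (Or.inr h0)).const_mul (2 * π * ‖c‖ ^ 2)
    rw [← ofReal_integral_eq_lintegral_ofReal, ← integral_Ioc_eq_integral_Ioo,
      ← intervalIntegral.integral_of_le hε1.le, intervalIntegral.integral_const_mul,
      integral_zpow (Or.inr ⟨by norm_num, h0⟩)]
    · congr 1
      norm_num
      field_simp
      ring
    · exact (intervalIntegrable_iff_integrableOn_Ioo_of_le hε1.le).1 hi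
    · filter_upwards [ae_restrict_mem measurableSet_Ioo] with x hx
      have := hε.trans hx.1
      positivity
  have hsplit : dir F A = ENNReal.ofReal (π * ‖c‖ ^ 2 / ε ^ 2 - π * ‖c‖ ^ 2) + dir h A := by
    rw [hA, dir_polar hε.le, dir_polar hε.le hch, ← hint, ← lintegral_add_left (by fun_prop)]
    · refine setLIntegral_congr_fun measurableSet_Ioo fun ρ hρ => ?_
      have hρ0 : 0 < ρ := hε.trans hρ.1
      have e : ms (deriv F) ρ = ms (fun w => -c / w ^ 2 + deriv h w) ρ := by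
        simp only [ms]
        congr 1
        refine intervalIntegral.integral_congr fun θ _ => ?_
        simp only [hsph ρ hρ _ (circleMap_mem_sphere 0 hρ0.le θ)]
      rw [e, ms_pole hρ0 (hd'.mono (sub_ball hρ.2)), ← ENNReal.ofReal_add (by positivity)
        (mul_nonneg hρ0.le (mul_nonneg (by positivity) (ms_nonneg _ _)))]
      congr 1
      norm_num
      field_simp
    · intro ρ hρ
      refine ContinuousOn.congr ?_ (hsph ρ hρ)
      refine ContinuousOn.add (continuousOn_const.div (by fun_prop) fun w hw => ?_) (hch ρ hρ)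
      have hw' : ‖w‖ = ρ := mem_sphere_zero_iff_norm.1 hw
      exact pow_ne_zero _ (norm_pos_iff.1 (hw' ▸ hε.trans hρ.1))
  have hfin := hvol.symm.le.trans ((measure_mono hsub).trans hΨ)
  have h1 : 0 ≤ π * ‖c‖ ^ 2 / ε ^ 2 - π * ‖c‖ ^ 2 := by
    rw [sub_nonneg, le_div_iff₀ (by positivity)]
    have : ε ^ 2 ≤ 1 := by nlinarith
    have h2 : 0 ≤ π * ‖c‖ ^ 2 := by positivity
    nlinarith
  rw [hsplit, show π * ‖c‖ ^ 2 / ε ^ 2 = π * ‖c‖ ^ 2 / ε ^ 2 - π * ‖c‖ ^ 2 + π * ‖c‖ ^ 2 by ring,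
    ENNReal.ofReal_add h1 (by positivity), add_sub_cancel_right] at hfin
  exact (ENNReal.add_le_add_iff_left ENNReal.ofReal_ne_top).1 hfin

theorem area0 {h : ℂ → ℂ} {c : ℂ} (hc : c ≠ 0) (hd : DifferentiableOn ℂ h (ball 0 1))
    (hi : InjOn (fun w => c / w + h w) (ball 0 1 \ {0})) :
    dir h (ball 0 1) ≤ ENNReal.ofReal (π * ‖c‖ ^ 2) := by
  have hd' : DifferentiableOn ℂ (deriv h) (ball 0 1) := hd.deriv isOpen_ball
  obtain ⟨L, hL⟩ := (isCompact_closedBall (0 : ℂ) (1 / 2)).exists_bound_of_continuousOn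
    (hd'.continuousOn.mono (sub_ball (by norm_num)))
  have ht : Tendsto (fun ε : ℝ => ENNReal.ofReal (π * ‖c‖ ^ 2) +
      ENNReal.ofReal (L ^ 2 * (ε ^ 2 * π))) (𝓝[>] 0) (𝓝 (ENNReal.ofReal (π * ‖c‖ ^ 2))) := by
    have : Continuous fun ε : ℝ => ENNReal.ofReal (π * ‖c‖ ^ 2) +
        ENNReal.ofReal (L ^ 2 * (ε ^ 2 * π)) :=
      continuous_const.add (ENNReal.continuous_ofReal.comp (by fun_prop))
    simpa using (this.tendsto 0).mono_left nhdsWithin_le_nhds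
  refine ge_of_tendsto ht ?_
  have h1 : ∀ᶠ ε : ℝ in 𝓝[>] 0, ε ^ 2 * L / ‖c‖ < 1 := by
    have : Continuous fun ε : ℝ => ε ^ 2 * L / ‖c‖ := by fun_prop
    exact ((this.tendsto 0).eventually_lt_const (by simp)).filter_mono nhdsWithin_le_nhds
  filter_upwards [h1, Ioo_mem_nhdsGT (show (0 : ℝ) < 1 / 2 by norm_num)] with ε hs hε
  have hb : ∀ u : ℂ, ‖u‖ ≤ ε → ‖deriv h u‖ ≤ L := fun u hu =>
    hL u (mem_closedBall_zero_iff.2 (hu.trans hε.2.le))
  have h2 := area_ann hc hd hi hε.1 (by linarith [hε.2]) hb hs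
  calc dir h (ball 0 1) ≤ dir h (ball 0 1 \ closedBall 0 ε ∪ closedBall 0 ε) :=
        lintegral_mono_set (subset_sdiff_union _ _)
    _ ≤ dir h (ball 0 1 \ closedBall 0 ε) + dir h (closedBall 0 ε) := lintegral_union_le _ _ _
    _ ≤ _ := by
      refine add_le_add h2 ((setLIntegral_mono' (g := fun _ => ENNReal.ofReal (L ^ 2))
        measurableSet_closedBall fun u hu => ENNReal.ofReal_le_ofReal ?_).trans ?_)
      · have := hb u (mem_closedBall_zero_iff.1 hu)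
        gcongr
      · rw [setLIntegral_const, volume_closedBall, ← ENNReal.ofReal_pow hε.1.le,
          ← ENNReal.ofReal_coe_nnreal, ← ENNReal.ofReal_mul (by positivity),
          ← ENNReal.ofReal_mul (by positivity)]
        simp

end Vale.Agent.P142
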