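import Mathlib

/-! Taylor and Fourier coefficients on circles, Parseval, polar coordinates. -/

open MeasureTheory Complex Set Metric Filter Topology
open scoped ComplexConjugate Real ENNReal

namespace Vale.Agent.P142

/-- Taylor coefficient at the origin -/
noncomputable def co (g : ℂ → ℂ) (n : ℕ) : ℂ := iteratedDeriv n g 0 / n.factorial

/-- Fourier coefficient on the circle of radius `ρ` -/
noncomputable def fc (g : ℂ → ℂ) (ρ : ℝ) (n : ℤ) : ℂ :=
  (1 / (2 * π) : ℂ) * ∫ θ in (0 : ℝ)..(2 * π), exp (-(n * θ * I)) * g (circleMap 0 ρ θ)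

/-- mean square on the circle of radius `ρ` -/
noncomputable def ms (g : ℂ → ℂ) (ρ : ℝ) : ℝ :=
  (1 / (2 * π)) * ∫ θ in (0 : ℝ)..(2 * π), ‖g (circleMap 0 ρ θ)‖ ^ 2

theorem cont_circ {g : ℂ → ℂ} {ρ : ℝ} (hρ : 0 ≤ ρ) (hg : ContinuousOn g (sphere 0 ρ)) :
    Continuous fun θ : ℝ => g (circleMap 0 ρ θ) :=
  hg.comp_continuous (continuous_circleMap 0 ρ) fun θ => circleMap_mem_sphere 0 hρ θ

theorem fc_eq (g : ℂ → ℂ) (ρ : ℝ) (n : ℤ) :
    fc g ρ n = fourierCoeffOn Real.two_pi_pos (fun θ => g (circleMap 0 ρ θ)) n := by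
  rw [fourierCoeffOn_eq_integral, fc, real_smul]
  have h : (2 * π : ℂ) ≠ 0 := by
    have := Real.pi_ne_zero
    simp [this]
  congr 1
  · simp
  · refine intervalIntegral.integral_congr fun θ _ => ?_
    simp only [fourier_coe_apply, smul_eq_mul]
    congr 2
    push_cast
    field_simp
    ring

theorem parseval {g : ℂ → ℂ} {ρ : ℝ} (hc : Continuous fun θ : ℝ => g (circleMap 0 ρ θ)) :
    HasSum (fun n : ℤ => ‖fc g ρ n‖ ^ 2) (ms g ρ) := by
  have hL : MemLp (fun θ : ℝ => g (circleMap 0 ρ θ)) 2 (volume.restrict (Ioc 0 (2 * π))) := by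
    obtain ⟨C, hC⟩ := (isCompact_Icc (a := (0 : ℝ)) (b := 2 * π)).exists_bound_of_continuousOn
      hc.continuousOn
    refine MemLp.of_bound hc.aestronglyMeasurable C ?_
    filter_upwards [ae_restrict_mem measurableSet_Ioc] with x hx using hC x (Ioc_subset_Icc_self hx)
  have := hasSum_sq_fourierCoeffOn Real.two_pi_pos hL
  simp only [fc_eq, ms]
  convert this using 1
  simp

theorem fc_circ (g : ℂ → ℂ) {ρ : ℝ} (hρ : 0 < ρ) (n : ℤ) :
    fc g ρ n = (ρ : ℂ) ^ n / (2 * π * I) * ∮ z in C(0, ρ), z ^ (-n - 1) * g z := by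
  have hρ' : (ρ : ℂ) ≠ 0 := by exact_mod_cast hρ.ne'
  have h : (2 * π : ℂ) ≠ 0 := by
    have := Real.pi_ne_zero
    simp [this]
  rw [circleIntegral, fc, ← intervalIntegral.integral_const_mul,
    ← intervalIntegral.integral_const_mul]
  refine intervalIntegral.integral_congr fun θ _ => ?_
  simp only [deriv_circleMap, smul_eq_mul]
  have e : circleMap 0 ρ θ * circleMap 0 ρ θ ^ (-n - 1) = (ρ : ℂ) ^ (-n) * exp (-(n * θ * I)) := by
    have h0 : circleMap 0 ρ θ ≠ 0 := circleMap_ne_center hρ.ne'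
    rw [← zpow_one_add₀ h0, show 1 + (-n - 1) = -n by ring, circleMap_zero, mul_zpow,
      ← exp_int_mul]
    congr 2
    push_cast
    ring
  calc _ = (ρ : ℂ) ^ n / (2 * π * I) * (I * ((ρ : ℂ) ^ (-n) * exp (-(n * θ * I))) *
        g (circleMap 0 ρ θ)) := by
        rw [zpow_neg]
        have := zpow_ne_zero n hρ'
        field_simp
    _ = _ := by rw [← e]; ring

theorem fc_nat {g : ℂ → ℂ} {ρ : ℝ} (hρ : 0 < ρ) (hg : DifferentiableOn ℂ g (closedBall 0 ρ))
    (n : ℕ) : fc g ρ n = co g n * (ρ : ℂ) ^ n := by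
  have := hg.circleIntegral_one_div_sub_center_pow_smul hρ n
  rw [fc_circ g hρ]
  have e : (fun z : ℂ => z ^ (-(n : ℤ) - 1) * g z) = fun z => (1 / (z - 0) ^ (n + 1)) • g z := by
    funext z
    rw [show -(n : ℤ) - 1 = -((n + 1 : ℕ) : ℤ) by push_cast; ring, zpow_neg, zpow_natCast]
    simp
  rw [e, this, co]
  have := two_pi_I_ne_zero
  have h2 : (n.factorial : ℂ) ≠ 0 := by exact_mod_cast n.factorial_ne_zero
  simp only [smul_eq_mul, zpow_natCast]
  field_simp

theorem fc_neg {g : ℂ → ℂ} {ρ : ℝ} (hρ : 0 < ρ) (hg : DifferentiableOn ℂ g (closedBall 0 ρ))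
    {n : ℤ} (hn : n < 0) : fc g ρ n = 0 := by
  rw [fc_circ g hρ]
  obtain ⟨m, hm⟩ := Int.eq_ofNat_of_zero_le (show 0 ≤ -n - 1 by omega)
  rw [hm]
  have : DifferentiableOn ℂ (fun z : ℂ => z ^ (m : ℤ) * g z) (closedBall 0 ρ) := by
    simp only [zpow_natCast]
    exact (differentiableOn_pow m).mul hg
  rw [(this.mono closure_ball_subset_closedBall).diffContOnCl.circleIntegral_eq_zero hρ.le,
    mul_zero]

theorem parseval_co {g : ℂ → ℂ} {ρ : ℝ} (hρ : 0 < ρ)
    (hg : DifferentiableOn ℂ g (closedBall 0 ρ)) :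
    HasSum (fun n : ℕ => ‖co g n‖ ^ 2 * (ρ ^ 2) ^ n) (ms g ρ) := by
  have h := parseval (cont_circ hρ.le (hg.continuousOn.mono sphere_subset_closedBall))
  rw [← Function.Injective.hasSum_iff (g := fun n : ℕ => (n : ℤ)) Nat.cast_injective] at h
  · convert h using 2 with n
    simp only [Function.comp, fc_nat hρ hg, norm_mul, norm_pow, norm_real, Real.norm_eq_abs,
      abs_of_pos hρ]
    ring
  · intro n hn
    have : n < 0 := by
      by_contra h0
      exact hn ⟨n.toNat, Int.toNat_of_nonneg (not_lt.1 h0)⟩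
    simp [fc_neg hρ hg this]

theorem co_deriv (g : ℂ → ℂ) (n : ℕ) : co (deriv g) n = (n + 1) * co g (n + 1) := by
  rw [co, co, iteratedDeriv_succ', Nat.factorial_succ]
  have h2 : (n.factorial : ℂ) ≠ 0 := by exact_mod_cast n.factorial_ne_zero
  have h3 : (n : ℂ) + 1 ≠ 0 := by exact_mod_cast n.succ_ne_zero
  push_cast
  field_simp

theorem ms_nonneg (g : ℂ → ℂ) (ρ : ℝ) : 0 ≤ ms g ρ :=
  mul_nonneg (by positivity) (intervalIntegral.integral_nonneg Real.two_pi_pos.le
    fun _ _ => by positivity)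

theorem shift (F : ℂ → ℝ) (ρ : ℝ) :
    ∫ θ in (-π)..π, F (circleMap 0 ρ θ) = ∫ θ in (0 : ℝ)..(2 * π), F (circleMap 0 ρ θ) := by
  have h : Function.Periodic (fun θ => F (circleMap 0 ρ θ)) (2 * π) :=
    (periodic_circleMap 0 ρ).comp F
  have := h.intervalIntegral_add_eq (-π) 0
  rwa [show -π + 2 * π = π by ring, zero_add] at this

theorem lint_circ {F : ℂ → ℝ} {ρ : ℝ} (hρ : 0 ≤ ρ) (hF : ContinuousOn F (sphere 0 ρ))
    (h0 : ∀ z, 0 ≤ F z) :
    ∫⁻ θ in Ioo (-π) π, ENNReal.ofReal (F (circleMap 0 ρ θ)) =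
      ENNReal.ofReal (∫ θ in (-π)..π, F (circleMap 0 ρ θ)) := by
  have hc : Continuous fun θ : ℝ => F (circleMap 0 ρ θ) :=
    hF.comp_continuous (continuous_circleMap 0 ρ) fun θ => circleMap_mem_sphere 0 hρ θ
  have hπ : -π ≤ π := by linarith [Real.pi_pos]
  rw [intervalIntegral.integral_of_le hπ, integral_Ioc_eq_integral_Ioo,
    ofReal_integral_eq_lintegral_ofReal]
  · exact (hc.continuousOn.integrableOn_Icc (a := -π) (b := π)).mono_set Ioo_subset_Icc_self
  · exact Eventually.of_forall fun θ => h0 _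

theorem lint_ms {g : ℂ → ℂ} {ρ : ℝ} (hρ : 0 ≤ ρ) (hg : ContinuousOn g (sphere 0 ρ)) :
    ∫⁻ θ in Ioo (-π) π, ENNReal.ofReal (‖g (circleMap 0 ρ θ)‖ ^ 2) =
      ENNReal.ofReal (2 * π * ms g ρ) := by
  rw [lint_circ (F := fun z => ‖g z‖ ^ 2) hρ (hg.norm.pow 2) (fun _ => by positivity),
    shift (fun z => ‖g z‖ ^ 2), ms]
  congr 1
  have := Real.pi_ne_zero
  field_simp

theorem polar {G : ℂ → ℝ≥0∞} (hG : Measurable G) {a b : ℝ} (ha : 0 ≤ a) :
    ∫⁻ w in ball 0 b \ closedBall 0 a, G w =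
      ∫⁻ ρ in Ioo a b, ENNReal.ofReal ρ * ∫⁻ θ in Ioo (-π) π, G (circleMap 0 ρ θ) := by
  have hm : MeasurableSet (ball (0 : ℂ) b \ closedBall 0 a) :=
    measurableSet_ball.diff measurableSet_closedBall
  rw [← lintegral_indicator hm, ← Complex.lintegral_comp_polarCoord_symm, polarCoord_target,
    Measure.volume_eq_prod, ← Measure.prod_restrict, lintegral_prod]
  · rw [← inter_eq_right.2 (show Ioo a b ⊆ Ioi 0 from fun x hx => lt_of_le_of_lt ha hx.1),
      inter_comm, ← Measure.restrict_restrict measurableSet_Ioo,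
      ← lintegral_indicator measurableSet_Ioo]
    refine setLIntegral_congr_fun measurableSet_Ioi fun ρ hρ => ?_
    have hρ' : 0 < ρ := hρ
    have e : ∀ θ : ℝ, Complex.polarCoord.symm (ρ, θ) = circleMap 0 ρ θ := fun θ => by
      simp [Complex.polarCoord_symm_apply, circleMap_zero, exp_mul_I]
    have hn : ∀ θ : ℝ, ‖circleMap 0 ρ θ‖ = ρ := fun θ => by simp [abs_of_pos hρ']
    simp only [e, smul_eq_mul]
    by_cases h : ρ ∈ Ioo a b
    · rw [indicator_of_mem h, ← lintegral_const_mul _ (by fun_prop)]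
      refine lintegral_congr fun θ => ?_
      rw [indicator_of_mem]
      simp [hn, h.1, h.2]
    · rw [indicator_of_notMem h]
      refine (lintegral_congr fun θ => ?_).trans lintegral_zero
      rw [indicator_of_notMem, mul_zero]
      simp only [Set.mem_sdiff, mem_ball_zero_iff, mem_closedBall_zero_iff, hn, not_le]
      exact fun h' => h ⟨h'.2, h'.1⟩
  · refine Measurable.aemeasurable ?_
    simp only [smul_eq_mul]
    refine (ENNReal.measurable_ofReal.comp measurable_fst).mul ((hG.indicator hm).comp ?_)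
    have : (fun p : ℝ × ℝ => Complex.polarCoord.symm p) =
        fun p => (p.1 : ℂ) * (Real.cos p.2 + Real.sin p.2 * I) := by
      funext p; simp [Complex.polarCoord_symm_apply]
    change Measurable fun p : ℝ × ℝ => Complex.polarCoord.symm p
    rw [this]
    fun_prop

end Vale.Agent.P142
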