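import Vale.Agent.P142.Weight

/-! A numerical lower bound for the threshold integral. -/

open MeasureTheory Set Filter Topology Real

namespace Vale.Agent.P142

theorem cont_rp {a : ℝ} (ha : 0 ≤ a) : Continuous fun x : ℝ => x ^ a := continuous_rpow_const ha

theorem betaI (k : ℕ) : ∀ a : ℝ, 0 ≤ a → ∫ x in (0 : ℝ)..1, x ^ a * (1 - x) ^ k =
    k.factorial / ∏ j ∈ Finset.range (k + 1), (a + 1 + j) := by
  induction k with
  | zero =>
    intro a ha
    simp only [pow_zero, mul_one]
    rw [integral_rpow (Or.inl (by linarith)), one_rpow, zero_rpow (by positivity)]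
    simp
  | succ k ih =>
    intro a ha
    have h1 : 0 ≤ a + 1 := by positivity
    have e : ∫ x in (0 : ℝ)..1, x ^ a * (1 - x) ^ (k + 1) =
        ∫ x in (0 : ℝ)..1, (x ^ a * (1 - x) ^ k - x ^ (a + 1) * (1 - x) ^ k) := by
      refine intervalIntegral.integral_congr fun x hx => ?_
      rw [uIcc_of_le zero_le_one] at hx
      rw [rpow_add_of_nonneg hx.1 ha zero_le_one, rpow_one]
      ring
    have c1 : Continuous fun x : ℝ => x ^ a * (1 - x) ^ k := (cont_rp ha).mul (by fun_prop)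
    have c2 : Continuous fun x : ℝ => x ^ (a + 1) * (1 - x) ^ k := (cont_rp h1).mul (by fun_prop)
    rw [e, intervalIntegral.integral_sub (c1.intervalIntegrable _ _) (c2.intervalIntegrable _ _),
      ih a ha, ih _ h1]
    have e1 := Finset.prod_range_succ (fun j : ℕ => a + 1 + j) (k + 1)
    have e2 := Finset.prod_range_succ' (fun j : ℕ => a + 1 + j) (k + 1)
    have e3 : ∏ j ∈ Finset.range (k + 1), (a + 1 + ((j + 1 : ℕ) : ℝ)) =
        ∏ j ∈ Finset.range (k + 1), (a + 1 + 1 + j) :=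
      Finset.prod_congr rfl fun j _ => by push_cast; ring
    rw [e3] at e2
    have p1 : 0 < ∏ j ∈ Finset.range (k + 1), (a + 1 + j) :=
      Finset.prod_pos fun j _ => by positivity
    have p2 : 0 < ∏ j ∈ Finset.range (k + 1), (a + 1 + 1 + j) :=
      Finset.prod_pos fun j _ => by positivity
    have p3 : 0 < ∏ j ∈ Finset.range (k + 1 + 1), (a + 1 + j) :=
      Finset.prod_pos fun j _ => by positivity
    generalize ∏ j ∈ Finset.range (k + 1), (a + 1 + j) = A at *
    generalize ∏ j ∈ Finset.range (k + 1), (a + 1 + 1 + j) = B at *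
    generalize ∏ j ∈ Finset.range (k + 1 + 1), (a + 1 + j) = C at *
    have a1 : (k.factorial : ℝ) / A = k.factorial * (a + 1 + (k + 1 : ℕ)) / C := by
      rw [e1]; field_simp
    have a2 : (k.factorial : ℝ) / B = k.factorial * (a + 1 + (0 : ℕ)) / C := by
      rw [e2]; field_simp
    rw [a1, a2, Nat.factorial_succ]
    push_cast
    ring

theorem intP {ι : Type} [Fintype ι] {a : ℝ} (ha : 0 ≤ a) (c : ι → ℝ) (e : ι → ℕ) :
    ∫ x in (0 : ℝ)..1, x ^ a * ∑ i, c i * (x * (1 - x)) ^ e i =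
      ∑ i, c i * ((e i).factorial / ∏ j ∈ Finset.range (e i + 1), (a + e i + 1 + j)) := by
  simp only [Finset.mul_sum]
  have c1 : ∀ i, Continuous fun x : ℝ => x ^ a * (c i * (x * (1 - x)) ^ e i) := fun i =>
    (cont_rp ha).mul (by fun_prop)
  rw [intervalIntegral.integral_finsetSum fun i _ => (c1 i).intervalIntegrable _ _]
  refine Finset.sum_congr rfl fun i _ => ?_
  rw [← betaI _ _ (by positivity), ← intervalIntegral.integral_const_mul]
  refine intervalIntegral.integral_congr fun x hx => ?_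
  rw [uIcc_of_le zero_le_one] at hx
  rw [rpow_add_of_nonneg hx.1 ha (by positivity), rpow_natCast, mul_pow]
  ring

theorem Jint_ge {ι : Type} [Fintype ι] {β : ℝ} (hβ : 0 ≤ β) (c : ι → ℝ) (e : ι → ℕ) :
    2 * (∑ i, c i * ((e i + 1).factorial /
        ∏ j ∈ Finset.range (e i + 1 + 1), ((0 : ℝ) + (e i + 1 : ℕ) + 1 + j))) -
      2 * (∑ p : ι × ι, c p.1 * c p.2 * ((e p.1 + e p.2 + 1).factorial /
        ∏ j ∈ Finset.range (e p.1 + e p.2 + 1 + 1),
          (β + 3 + (e p.1 + e p.2 + 1 : ℕ) + 1 + j))) ≤ Jint β := by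
  have hq : 0 ≤ β + 3 := by positivity
  rw [← intP le_rfl c fun i => e i + 1,
    ← intP hq (fun p : ι × ι => c p.1 * c p.2) fun p => e p.1 + e p.2 + 1]
  let Q : ℝ → ℝ := fun x => ∑ i, c i * (x * (1 - x)) ^ e i
  have hQ : Continuous Q := by fun_prop
  have e1 : ∀ x : ℝ, x ^ (0 : ℝ) * ∑ i, c i * (x * (1 - x)) ^ (e i + 1) = x * (1 - x) * Q x :=
    fun x => by
      rw [rpow_zero, one_mul, Finset.mul_sum]
      exact Finset.sum_congr rfl fun i _ => by ring
  have e2 : ∀ x : ℝ, ∑ p : ι × ι, c p.1 * c p.2 * (x * (1 - x)) ^ (e p.1 + e p.2 + 1) =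
      x * (1 - x) * Q x ^ 2 := fun x => by
    rw [sq, Finset.sum_mul_sum, Fintype.sum_prod_type, Finset.mul_sum]
    refine Finset.sum_congr rfl fun i _ => ?_
    rw [Finset.mul_sum]
    exact Finset.sum_congr rfl fun j _ => by ring
  simp only [e1, e2]
  have e3 : ∫ x in (0 : ℝ)..1, x ^ (β + 3) * (x * (1 - x) * Q x ^ 2) =
      ∫ x in (0 : ℝ)..1, (1 - x) ^ (β + 3) * (x * (1 - x) * Q x ^ 2) := by
    have := intervalIntegral.integral_comp_sub_left (a := 0) (b := 1)
      (fun x : ℝ => x ^ (β + 3) * (x * (1 - x) * Q x ^ 2)) 1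
    rw [sub_self, sub_zero] at this
    rw [← this]
    refine intervalIntegral.integral_congr fun x _ => ?_
    simp only [Q, sub_sub_cancel, mul_comm (1 - x) x]
  have c1 := cont_rp hq
  have c2 : Continuous fun x : ℝ => (1 - x) ^ (β + 3) := c1.comp (by fun_prop)
  have i1 : Continuous fun x : ℝ => 2 * (x * (1 - x) * Q x) := by fun_prop
  have i2 : Continuous fun x : ℝ => x ^ (β + 3) * (x * (1 - x) * Q x ^ 2) := c1.mul (by fun_prop)
  have i3 : Continuous fun x : ℝ => (1 - x) ^ (β + 3) * (x * (1 - x) * Q x ^ 2) :=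
    c2.mul (by fun_prop)
  have hD : ∀ x ∈ Icc (0 : ℝ) 1, 0 < x ^ (β + 3) + (1 - x) ^ (β + 3) := fun x hx => by
    obtain ⟨h1, h2⟩ := hx
    rcases le_total x (1 / 2) with h | h
    · have : 0 < 1 - x := by linarith
      positivity
    · have h5 : 0 < x := by linarith
      have : 0 ≤ 1 - x := by linarith
      positivity
  rw [two_mul (∫ x in (0 : ℝ)..1, x ^ (β + 3) * _)]
  nth_rewrite 2 [e3]
  rw [← intervalIntegral.integral_const_mul, ← intervalIntegral.integral_add
    (i2.intervalIntegrable _ _) (i3.intervalIntegrable _ _), ← intervalIntegral.integral_sub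
    (i1.intervalIntegrable _ _) ((i2.fun_add i3).intervalIntegrable _ _)]
  refine intervalIntegral.integral_mono_on zero_le_one
    ((i1.fun_sub (i2.fun_add i3)).intervalIntegrable _ _) (ContinuousOn.intervalIntegrable ?_)
    fun x hx => ?_
  · rw [uIcc_of_le zero_le_one]
    exact ContinuousOn.div (by fun_prop) (c1.add c2).continuousOn fun x hx => (hD x hx).ne'
  · have h0 := hD x hx
    have hs : 0 ≤ x * (1 - x) := mul_nonneg hx.1 (sub_nonneg.2 hx.2)
    rw [le_div_iff₀ h0]
    nlinarith [mul_nonneg hs (sq_nonneg (1 - Q x * (x ^ (β + 3) + (1 - x) ^ (β + 3))))]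

theorem numeric : 2 < (1.124425 : ℝ) * (1.124425 + 1) * Jint 1.124425 := by
  have h := Jint_ge (β := 1.124425) (by norm_num)
    ![0.959, 1.46 * 4, 3.616 * 4 ^ 4, 2.667 * 4 ^ 14] ![0, 1, 4, 14]
  refine lt_of_lt_of_le ?_ (mul_le_mul_of_nonneg_left h (by norm_num))
  simp only [Fintype.sum_prod_type, Fin.sum_univ_four, Matrix.cons_val]
  norm_num [Finset.prod_range_succ, Nat.factorial]

end Vale.Agent.P142
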