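import Vale.Agent.P142.Coef
import Vale.Agent.P142.Num

/-! Growth of the means of `|f'|⁻²` and integrability of negative powers of `|f'|`. -/

open MeasureTheory Complex Set Metric Filter Topology
open scoped Real ENNReal

namespace Vale.Agent.P142

theorem ms_le {f : ℂ → ℂ} (hd : DifferentiableOn ℂ f (ball 0 1)) (hi : InjOn f (ball 0 1)) {β : ℝ}
    (hβ : 0 < β) (hJ : 2 < β * (β + 1) * Jint β) :
    ∃ C, 1 ≤ C ∧ ∀ ρ ∈ Ioo (0 : ℝ) 1, ms (V f) ρ ≤ C * (1 / (1 - ρ)) ^ β := by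
  obtain ⟨r, hr, h⟩ := main_ineq hd hi
  have hs : ∀ x ∈ Ioo (0 : ℝ) 1, √x ∈ Ioo (0 : ℝ) 1 := fun x hx =>
    ⟨Real.sqrt_pos.2 hx.1, (Real.sqrt_lt' one_pos).2 (by rw [one_pow]; exact hx.2)⟩
  obtain ⟨C, hC⟩ := growth (M := fun x => ms (V f) √x) hr (fun x hx => by
      have := parseval_co (hs x hx).1 ((V_diff hd hi).mono (sub_ball (hs x hx).2))
      rwa [Real.sq_sqrt hx.1.le] at this) (fun x hx s => by
      have := h _ (hs x hx) s
      rwa [Real.sq_sqrt hx.1.le] at this) hβ hJ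
  refine ⟨max C 1, le_max_right _ _, fun ρ hρ => ?_⟩
  have := hC ρ hρ
  have hy : 0 < 1 - ρ := sub_pos.2 hρ.2
  simp only [Real.sqrt_sq hρ.1.le] at this
  exact this.trans (by gcongr; exact le_max_left _ _)

theorem means_eq (f : ℂ → ℂ) (ρ : ℝ) :
    1 / (2 * π) * ∫ θ in (-π)..π, ‖deriv f (ρ * exp (θ * I))‖ ^ (-2 : ℝ) = ms (V f) ρ := by
  rw [ms, ← shift (fun z => ‖V f z‖ ^ 2)]
  congr 2
  funext θ
  rw [Real.rpow_neg (norm_nonneg _), V, circleMap_zero, norm_inv, inv_pow]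
  norm_num

theorem limsup_le {M : ℝ → ℝ} {C β : ℝ} (hC : 1 ≤ C) (hβ : 0 < β) (h0 : ∀ r, 0 ≤ M r)
    (h : ∀ r ∈ Ioo (0 : ℝ) 1, M r ≤ C * (1 / (1 - r)) ^ β) :
    limsup (fun r : ℝ => ((Real.log (M r) / Real.log (1 / (1 - r)) : ℝ) : EReal)) (𝓝[<] 1) ≤
      (β : EReal) := by
  have h1 : Tendsto (fun r : ℝ => Real.log (1 / (1 - r))) (𝓝[<] 1) atTop := by
    refine Real.tendsto_log_atTop.comp ?_
    simp only [one_div]
    refine tendsto_inv_nhdsGT_zero.comp (tendsto_nhdsWithin_iff.2 ⟨?_, ?_⟩)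
    · have : Continuous fun r : ℝ => 1 - r := by fun_prop
      simpa using (this.tendsto 1).mono_left nhdsWithin_le_nhds
    · filter_upwards [self_mem_nhdsWithin] with r hr using sub_pos.2 (mem_Iio.1 hr)
  have h2 : Tendsto (fun r : ℝ => ((β + Real.log C / Real.log (1 / (1 - r)) : ℝ) : EReal)) (𝓝[<] 1)
      (𝓝 (β : EReal)) := by
    refine EReal.tendsto_coe.2 ?_
    simpa using (h1.const_div_atTop (Real.log C)).const_add β
  rw [← h2.limsup_eq]
  refine limsup_le_limsup ?_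
  filter_upwards [Ioo_mem_nhdsLT (zero_lt_one' ℝ)] with r hr
  have hy : 0 < 1 - r := sub_pos.2 hr.2
  have hA : 1 < 1 / (1 - r) := by rw [lt_div_iff₀ hy]; linarith [hr.1]
  have hL := Real.log_pos hA
  have e : Real.log (C * (1 / (1 - r)) ^ β) = Real.log C + β * Real.log (1 / (1 - r)) := by
    rw [Real.log_mul (by positivity) (by positivity), Real.log_rpow (by positivity)]
  have h3 : Real.log (M r) ≤ Real.log C + β * Real.log (1 / (1 - r)) := by
    rcases (h0 r).eq_or_lt with h4 | h4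
    · rw [← h4, Real.log_zero]
      have := Real.log_nonneg hC
      positivity
    · rw [← e]
      exact Real.log_le_log h4 (h r hr)
  rw [EReal.coe_le_coe_iff, div_le_iff₀ hL, add_mul, div_mul_cancel₀ _ hL.ne']
  linarith

theorem integrable_f {f : ℂ → ℂ} (hd : DifferentiableOn ℂ f (ball 0 1)) (hi : InjOn f (ball 0 1))
    {β : ℝ} (hβ : 0 < β) (hJ : 2 < β * (β + 1) * Jint β) {t : ℝ} (h1 : -2 / β < t) (h2 : -2 ≤ t)
    (h0 : t ≤ 0) : ∫⁻ z in ball (0 : ℂ) 1, ENNReal.ofReal (‖deriv f z‖ ^ t) < ∞ := by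
  obtain ⟨C, hC, h⟩ := ms_le hd hi hβ hJ
  have hm : Measurable fun z => ENNReal.ofReal (‖deriv f z‖ ^ t) :=
    ENNReal.measurable_ofReal.comp ((measurable_deriv f).norm.pow_const t)
  have hae : (ball (0 : ℂ) 1 \ closedBall 0 0 : Set ℂ) =ᵐ[volume] ball (0 : ℂ) 1 := by
    rw [closedBall_zero]
    exact sdiff_null_ae_eq_self (measure_singleton _)
  rw [← setLIntegral_congr hae, polar hm le_rfl]
  set θ := -t / 2 with hθ
  have hθ0 : 0 ≤ θ := by linarith
  have hθ1 : θ ≤ 1 := by linarith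
  have hθ2 : -1 < -(β * θ) := by
    rw [div_lt_iff₀ hβ] at h1
    rw [hθ]
    linarith
  have hI : IntervalIntegrable (fun ρ : ℝ => (1 - ρ) ^ (-(β * θ))) volume 0 1 := by
    simpa using ((intervalIntegral.intervalIntegrable_rpow' (a := 1) (b := 0) hθ2).comp_sub_left 1)
  have hI2 := ((intervalIntegrable_iff_integrableOn_Ioo_of_le zero_le_one).1
    (hI.const_mul (2 * π * (1 + C)))).lintegral_lt_top
  refine lt_of_le_of_lt (setLIntegral_mono' measurableSet_Ioo fun ρ hρ => ?_) hI2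
  have hy : 0 < 1 - ρ := sub_pos.2 hρ.2
  set A := (1 / (1 - ρ)) ^ β with hA
  have hA0 : 0 < A := by positivity
  have hAθ : A ^ θ = (1 - ρ) ^ (-(β * θ)) := by
    rw [hA, ← Real.rpow_mul (by positivity), one_div, Real.inv_rpow hy.le, Real.rpow_neg hy.le]
  have hV := (V_diff hd hi).continuousOn.mono (sphere_subset_closedBall.trans (sub_ball hρ.2))
  have hb : ∀ z : ℂ, ‖deriv f z‖ ^ t ≤ A ^ θ + A ^ θ / A * ‖V f z‖ ^ 2 := fun z => by
    have e : ‖deriv f z‖ ^ t = (‖V f z‖ ^ 2 / A) ^ θ * A ^ θ := by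
      rw [← Real.mul_rpow (by positivity) hA0.le, div_mul_cancel₀ _ hA0.ne', V, norm_inv,
        ← Real.rpow_natCast, ← Real.rpow_mul (by positivity), Real.inv_rpow (norm_nonneg _),
        ← Real.rpow_neg (norm_nonneg _)]
      congr 1
      rw [hθ]
      push_cast
      ring
    have h3 : (‖V f z‖ ^ 2 / A) ^ θ ≤ 1 + ‖V f z‖ ^ 2 / A := by
      have h4 : 0 ≤ ‖V f z‖ ^ 2 / A := by positivity
      rcases le_total (‖V f z‖ ^ 2 / A) 1 with h5 | h5
      · linarith [Real.rpow_le_one h4 h5 hθ0]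
      · linarith [Real.rpow_le_self_of_one_le h5 hθ1]
    calc _ ≤ (1 + ‖V f z‖ ^ 2 / A) * A ^ θ := by rw [e]; gcongr
      _ = _ := by ring
  calc _ ≤ 1 * ∫⁻ α in Ioo (-π) π, (ENNReal.ofReal (A ^ θ) + ENNReal.ofReal (A ^ θ / A) *
        ENNReal.ofReal (‖V f (circleMap 0 ρ α)‖ ^ 2)) := by
        gcongr with α
        · exact ENNReal.ofReal_le_one.2 hρ.2.le
        · rw [← ENNReal.ofReal_mul (by positivity), ← ENNReal.ofReal_add (by positivity)
            (by positivity)]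
          exact ENNReal.ofReal_le_ofReal (hb _)
    _ = ENNReal.ofReal (A ^ θ * (2 * π) + A ^ θ / A * (2 * π * ms (V f) ρ)) := by
        have := ms_nonneg (V f) ρ
        rw [one_mul, lintegral_add_left measurable_const,
          lintegral_const_mul' _ _ ENNReal.ofReal_ne_top, lint_ms hρ.1.le hV, setLIntegral_const,
          Real.volume_Ioo, show π - -π = 2 * π by ring, ← ENNReal.ofReal_mul (by positivity),
          ← ENNReal.ofReal_mul (by positivity), ← ENNReal.ofReal_add (by positivity)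
          (by positivity)]
    _ ≤ _ := by
        refine ENNReal.ofReal_le_ofReal ?_
        rw [← hAθ]
        calc _ ≤ A ^ θ * (2 * π) + A ^ θ / A * (2 * π * (C * A)) := by
              gcongr
              exact h ρ hρ
          _ = _ := by field_simp

theorem integrableOn_f {f : ℂ → ℂ} {S : Set ℂ} {t : ℝ}
    (h : ∫⁻ z in S, ENNReal.ofReal (‖deriv f z‖ ^ t) < ∞) :
    IntegrableOn (fun z => ‖deriv f z‖ ^ t) S :=
  ⟨((measurable_deriv f).norm.pow_const t).aestronglyMeasurable,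
    (hasFiniteIntegral_iff_ofReal (Eventually.of_forall fun z => by positivity)).2 h⟩

theorem integrable_phi {W : Set ℂ} (hW : IsOpen W) {φ : ℂ → ℂ} (hd : DifferentiableOn ℂ φ W)
    (hb : BijOn φ W (ball 0 1)) {β : ℝ} (hβ : 0 < β) (hJ : 2 < β * (β + 1) * Jint β) {s : ℝ}
    (h1 : s < 2 + 2 / β) (h2 : s ≤ 4) (h0 : 2 ≤ s) :
    ∫⁻ z in W, ENNReal.ofReal (‖deriv φ z‖ ^ s) < ∞ := by
  let f := Function.invFunOn φ W
  have hne : ∀ u ∈ W, deriv φ u ≠ 0 := fun u hu => deriv_ne hW hd hb.injOn hu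
  have hf : ∀ u ∈ W, HasDerivAt f (deriv φ u)⁻¹ (φ u) := fun u hu => by
    refine ((hd.analyticAt (hW.mem_nhds hu)).hasStrictDerivAt.to_local_left_inverse (hne u hu)
      ?_).hasDerivAt
    filter_upwards [hW.mem_nhds hu] with x hx using hb.injOn.leftInvOn_invFunOn hx
  have hfd : DifferentiableOn ℂ f (ball 0 1) := fun z hz => by
    obtain ⟨u, hu, rfl⟩ := hb.surjOn hz
    exact (hf u hu).differentiableAt.differentiableWithinAt
  have hfi : InjOn f (ball 0 1) := hb.surjOn.rightInvOn_invFunOn.injOn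
  have h := integrable_f hfd hfi hβ hJ (t := 2 - s) (by rw [neg_div]; linarith) (by linarith)
    (by linarith)
  rw [← hb.image_eq, cov hW.measurableSet (fun z hz => hd.differentiableAt (hW.mem_nhds hz))
    hb.injOn] at h
  refine lt_of_eq_of_lt (setLIntegral_congr_fun hW.measurableSet fun u hu => ?_) h
  have hp := norm_pos_iff.2 (hne u hu)
  rw [(hf u hu).deriv, ← ENNReal.ofReal_mul (by positivity), norm_inv, Real.inv_rpow hp.le,
    ← Real.rpow_neg hp.le, ← Real.rpow_natCast, ← Real.rpow_add hp]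
  congr 2
  push_cast
  ring

end Vale.Agent.P142
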