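import Mathlib

/-! The real-variable part: weights, Riemann sums, growth of the means. -/

open MeasureTheory Set Filter Topology Real
open scoped ENNReal

namespace Vale.Agent.P142

theorem gam {a r C : ℝ} (ha : 0 < a) (hr : 0 < r) (hC : 0 ≤ C) :
    ∫⁻ t in Ioi (0 : ℝ), ENNReal.ofReal (C * (t ^ (a - 1) * exp (-(r * t)))) =
      ENNReal.ofReal (C * ((1 / r) ^ a * Gamma a)) := by
  have h := integral_rpow_mul_exp_neg_mul_Ioi ha hr
  have hp : 0 < (1 / r) ^ a * Gamma a := mul_pos (by positivity) (Gamma_pos_of_pos ha)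
  have hi := Integrable.of_integral_ne_zero (h.trans_ne hp.ne')
  rw [← ofReal_integral_eq_lintegral_ofReal (hi.const_mul C), integral_const_mul, h]
  filter_upwards [ae_restrict_mem measurableSet_Ioi] with t ht
  have : 0 < t := ht
  positivity

theorem sinh_bd {t σ : ℝ} (ht : 0 < t) (h0 : 0 < σ) (h1 : σ < 1) :
    t ^ 2 * exp (-t) ≤ (1 - σ * exp (-t)) ^ 2 := by
  have h := self_le_sinh_iff.2 (show 0 ≤ t / 2 by linarith)
  rw [sinh_eq] at h
  have e1 : exp (-t) = exp (-(t / 2)) ^ 2 := by rw [← exp_nat_mul]; congr 1; push_cast; ring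
  have e2 : exp (t / 2) * exp (-(t / 2)) = 1 := by rw [← exp_add]; simp
  have hp := exp_pos (-(t / 2))
  have h2 : t * exp (-(t / 2)) ≤ 1 - σ * exp (-t) := by
    rw [e1]
    nlinarith [mul_pos hp hp]
  calc _ = (t * exp (-(t / 2))) ^ 2 := by rw [e1]; ring
    _ ≤ _ := by gcongr

theorem weight {a : ℕ → ℝ} {u : ℕ → ℕ → ℝ} {M : ℝ → ℝ} (ha : ∀ n, 0 ≤ a n) (hu : ∀ j k, 0 ≤ u j k)
    (hM : ∀ x ∈ Ioo (0 : ℝ) 1, HasSum (fun n => a n * x ^ n) (M x)) (s : Finset ℕ)
    (h : ∀ x ∈ Ioo (0 : ℝ) 1, ∑ k ∈ s, ∑ j ∈ s, u j k * x ^ j ≤ M x / (1 - x) ^ 2)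
    {β σ : ℝ} (hβ : 0 < β) (hσ : σ ∈ Ioo (0 : ℝ) 1) :
    β * (β + 1) * ∑ k ∈ s, ∑ j ∈ s, u j k * σ ^ j * (1 / (j + 2 : ℝ)) ^ (β + 2) ≤
      ∑' n, a n * σ ^ n * (1 / (n + 1 : ℝ)) ^ β := by
  have h0 := hσ.1
  have hG := Gamma_pos_of_pos hβ
  have hG2 : Gamma (β + 2) = β * (β + 1) * Gamma β := by
    rw [show β + 2 = β + 1 + 1 by ring, Gamma_add_one (by positivity), Gamma_add_one hβ.ne']
    ring
  have hle : ∀ n : ℕ, (1 / (n + 1 : ℝ)) ^ β ≤ 1 := fun n =>
    rpow_le_one (by positivity) (by rw [div_le_one (by positivity)]; linarith [n.cast_nonneg (α := ℝ)])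
      hβ.le
  have hsum : Summable fun n => a n * σ ^ n * (1 / (n + 1 : ℝ)) ^ β :=
    (hM σ hσ).summable.of_nonneg_of_le (fun n => by have := ha n; positivity) fun n =>
      mul_le_of_le_one_right (by have := ha n; positivity) (hle n)
  have key : ∫⁻ t in Ioi (0 : ℝ), ∑ k ∈ s, ∑ j ∈ s, ENNReal.ofReal
      (u j k * σ ^ j * (t ^ (β + 2 - 1) * exp (-((j + 2 : ℝ) * t)))) ≤
      ∫⁻ t in Ioi (0 : ℝ), ∑' n, ENNReal.ofReal
        (a n * σ ^ n * (t ^ (β - 1) * exp (-((n + 1 : ℝ) * t)))) := by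
    refine setLIntegral_mono' measurableSet_Ioi fun t ht => ?_
    have ht' : 0 < t := ht
    have he : exp (-t) < 1 := exp_lt_one_iff.2 (by linarith)
    have hx : σ * exp (-t) ∈ Ioo (0 : ℝ) 1 := ⟨by positivity, by nlinarith [hσ.2, exp_pos (-t)]⟩
    have e1 : ∀ n : ℕ, a n * σ ^ n * (t ^ (β - 1) * exp (-((n + 1 : ℝ) * t))) =
        t ^ (β - 1) * exp (-t) * (a n * (σ * exp (-t)) ^ n) := fun n => by
      rw [mul_pow, ← exp_nat_mul, show -((n + 1 : ℝ) * t) = -t + n * -t by ring, exp_add]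
      ring
    have e2 : ∀ j k : ℕ, u j k * σ ^ j * (t ^ (β + 2 - 1) * exp (-((j + 2 : ℝ) * t))) =
        t ^ (β - 1) * exp (-t) * (t ^ 2 * exp (-t)) * (u j k * (σ * exp (-t)) ^ j) := fun j k => by
      rw [mul_pow, ← exp_nat_mul, show -((j + 2 : ℝ) * t) = -t + -t + j * -t by ring, exp_add,
        exp_add, show β + 2 - 1 = β - 1 + (2 : ℕ) by push_cast; ring, rpow_add ht', rpow_natCast]
      ring
    have hx0 := hx.1
    simp only [e1, e2]
    rw [← ENNReal.ofReal_tsum_of_nonneg (fun n => by have := ha n; positivity)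
      ((hM _ hx).summable.mul_left _), ((hM _ hx).mul_left _).tsum_eq]
    rw [Finset.sum_congr rfl fun k _ => (ENNReal.ofReal_sum_of_nonneg
      fun j _ => by have := hu j k; positivity).symm, ← ENNReal.ofReal_sum_of_nonneg
      fun k _ => Finset.sum_nonneg fun j _ => by have := hu j k; positivity]
    refine ENNReal.ofReal_le_ofReal ?_
    simp only [← Finset.mul_sum]
    have h1 := h _ hx
    have h2 := sinh_bd ht' h0 hσ.2
    have h3 : 0 < (1 - σ * exp (-t)) ^ 2 := pow_pos (by linarith [hx.2]) 2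
    rw [le_div_iff₀ h3] at h1
    have h4 : 0 ≤ ∑ k ∈ s, ∑ j ∈ s, u j k * (σ * exp (-t)) ^ j :=
      Finset.sum_nonneg fun k _ => Finset.sum_nonneg fun j _ => by have := hu j k; positivity
    rw [mul_assoc]
    refine mul_le_mul_of_nonneg_left ?_ (by positivity)
    nlinarith
  rw [lintegral_tsum (fun n => by fun_prop), lintegral_finsetSum _ (fun k _ => by fun_prop),
    Finset.sum_congr rfl fun k _ => lintegral_finsetSum _ (fun j _ => by fun_prop)] at key
  rw [Finset.sum_congr rfl fun k _ => Finset.sum_congr rfl fun j _ =>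
    gam (by positivity) (by positivity) (by have := hu j k; positivity),
    tsum_congr fun n => gam hβ (by positivity) (by have := ha n; positivity)] at key
  have hG3 := Gamma_pos_of_pos (show 0 < β + 2 by positivity)
  simp only [← mul_assoc] at key
  rw [← ENNReal.ofReal_tsum_of_nonneg (fun n => by have := ha n; positivity) (hsum.mul_right _),
    Finset.sum_congr rfl fun k _ => (ENNReal.ofReal_sum_of_nonneg
      fun j _ => by have := hu j k; positivity).symm, ← ENNReal.ofReal_sum_of_nonneg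
      (fun k _ => Finset.sum_nonneg fun j _ => by have := hu j k; positivity),
    ENNReal.ofReal_le_ofReal_iff (tsum_nonneg fun n => by have := ha n; positivity),
    tsum_mul_right, hG2] at key
  simp only [← Finset.sum_mul] at key
  refine le_of_mul_le_mul_right ?_ hG
  linarith

theorem riemann {Φ : ℝ × ℝ → ℝ} (hΦ : ContinuousOn Φ (Icc 0 1 ×ˢ Icc 0 1)) {J : ℝ}
    (hJ : J < ∫ x in (0 : ℝ)..1, Φ (x, 0)) :
    ∀ᶠ N : ℕ in atTop, J * N ≤ ∑ j ∈ Finset.range N, Φ (j / N, 1 / N) := by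
  obtain ⟨η, hη, hu⟩ := Metric.uniformContinuousOn_iff.1
    ((isCompact_Icc.prod isCompact_Icc).uniformContinuousOn_of_continuous hΦ) _ (sub_pos.2 hJ)
  have hc : ContinuousOn (fun x : ℝ => Φ (x, 0)) (Icc 0 1) :=
    hΦ.comp (by fun_prop) fun x hx => ⟨hx, by simp⟩
  filter_upwards [eventually_gt_atTop 0,
    tendsto_one_div_atTop_nhds_zero_nat.eventually_lt_const hη] with N hN hN2
  have hN' : (0 : ℝ) < N := by exact_mod_cast hN
  have hN1 : (1 : ℝ) ≤ N := by exact_mod_cast hN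
  have hsub : ∀ k < N, Icc ((k : ℝ) / N) (((k + 1 : ℕ) : ℝ) / N) ⊆ Icc 0 1 := fun k hk =>
    Icc_subset_Icc (by positivity) (by rw [div_le_one hN']; exact_mod_cast hk)
  have hle : ∀ k : ℕ, (k : ℝ) / N ≤ ((k + 1 : ℕ) : ℝ) / N := fun k => by
    gcongr; exact k.le_succ
  have hi : ∀ k < N, IntervalIntegrable (fun x : ℝ => Φ (x, 0)) volume ((k : ℝ) / N)
      (((k + 1 : ℕ) : ℝ) / N) := fun k hk =>
    (hc.mono (by rw [uIcc_of_le (hle k)]; exact hsub k hk)).intervalIntegrable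
  have e := intervalIntegral.sum_integral_adjacent_intervals (a := fun k : ℕ => (k : ℝ) / N) hi
  simp only [Nat.cast_zero, zero_div, div_self hN'.ne'] at e
  set I := ∫ x in (0 : ℝ)..1, Φ (x, 0)
  have h1 : I ≤ ∑ k ∈ Finset.range N, (Φ (k / N, 1 / N) + (I - J)) / N := by
    refine e.symm.le.trans (Finset.sum_le_sum fun k hk => ?_)
    have hk' := Finset.mem_range.1 hk
    refine (intervalIntegral.integral_mono_on (hle k) (hi k hk') intervalIntegrable_const
      (g := fun _ => Φ (k / N, 1 / N) + (I - J)) fun x hx => ?_).trans (le_of_eq ?_)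
    · have hx2 : x - k / N ≤ 1 / N := by
        have := hx.2
        push_cast at this
        rw [add_div] at this
        linarith
      have := hu (x, 0) ⟨hsub k hk' hx, by simp⟩ (k / N, 1 / N)
        ⟨hsub k hk' (left_mem_Icc.2 (hle k)), by positivity, by rw [div_le_one hN']; exact hN1⟩ (by
          rw [Prod.dist_eq, Real.dist_eq, Real.dist_eq, max_lt_iff, abs_of_nonneg (by linarith [hx.1]),
            zero_sub, abs_neg, abs_of_pos (by positivity)]
          exact ⟨hx2.trans_lt hN2, hN2⟩)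
      rw [Real.dist_eq] at this
      linarith [(abs_lt.1 this).2]
    · rw [intervalIntegral.integral_const, smul_eq_mul]
      push_cast
      field_simp
      ring
  rw [← Finset.sum_div, Finset.sum_add_distrib, le_div_iff₀ hN'] at h1
  simp only [Finset.sum_const, Finset.card_range, nsmul_eq_mul] at h1
  linarith

/-- the threshold integral -/
noncomputable def Jint (β : ℝ) : ℝ :=
  ∫ x in (0 : ℝ)..1, x * (1 - x) / (x ^ (β + 3) + (1 - x) ^ (β + 3))

/-- harmonic-mean weight -/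
noncomputable def cw (β : ℝ) (j k : ℕ) : ℝ :=
  j * k / ((j + 2 : ℝ) ^ (β + 3) + (k + 2 : ℝ) ^ (β + 3))

theorem cw_nonneg (β : ℝ) (j k : ℕ) : 0 ≤ cw β j k := by unfold cw; positivity

theorem cw_le (β : ℝ) (j k : ℕ) (x y : ℝ) : cw β j k * (x + y) ^ 2 ≤
    k * x ^ 2 * (1 / (j + 2 : ℝ)) ^ (β + 2) + j * y ^ 2 * (1 / (k + 2 : ℝ)) ^ (β + 2) := by
  have hj : (0 : ℝ) < j + 2 := by positivity
  have hk : (0 : ℝ) < k + 2 := by positivity
  rw [cw, show β + 3 = β + 2 + 1 by ring, rpow_add_one hj.ne', rpow_add_one hk.ne',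
    one_div, one_div, inv_rpow hj.le, inv_rpow hk.le]
  have hA := rpow_pos_of_pos hj (β + 2)
  have hB := rpow_pos_of_pos hk (β + 2)
  generalize (j + 2 : ℝ) ^ (β + 2) = A at *
  generalize (k + 2 : ℝ) ^ (β + 2) = B at *
  have hj0 : (0 : ℝ) ≤ j := j.cast_nonneg
  have hk0 : (0 : ℝ) ≤ k := k.cast_nonneg
  rw [div_mul_eq_mul_div, div_le_iff₀ (by positivity), ← sub_nonneg]
  have e : (k * x ^ 2 * A⁻¹ + j * y ^ 2 * B⁻¹) * (A * (j + 2) + B * (k + 2)) - j * k * (x + y) ^ 2 =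
      (k * B * x - j * A * y) ^ 2 / (A * B) + 2 * (A + B) * (k * x ^ 2 / A + j * y ^ 2 / B) := by
    field_simp
    ring
  rw [e]
  positivity

theorem cw_sum {β J : ℝ} (hβ : 0 < β) (hJ0 : 0 ≤ J) (hJ : J < Jint β) : ∀ᶠ m : ℕ in atTop,
    J * (1 / ((m + 1 : ℕ) + 1 : ℝ)) ^ β ≤ ∑ j ∈ Finset.range (m + 1), cw β j (m - j) := by
  let Φ : ℝ × ℝ → ℝ := fun p =>
    p.1 * (1 - p.1 - p.2) / ((p.1 + 2 * p.2) ^ (β + 3) + (1 - p.1 + p.2) ^ (β + 3))
  have hq : 0 < β + 3 := by positivity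
  have hΦ : ContinuousOn Φ (Icc 0 1 ×ˢ Icc 0 1) := by
    refine ContinuousOn.div (by fun_prop) (Continuous.continuousOn ?_) fun p hp => ?_
    · exact (Continuous.rpow_const (by fun_prop) fun _ => Or.inr hq.le).add
        (Continuous.rpow_const (by fun_prop) fun _ => Or.inr hq.le)
    · obtain ⟨⟨h1, h2⟩, h3, -⟩ := hp
      rcases le_total p.1 (1 / 2) with h | h
      · have : 0 < 1 - p.1 + p.2 := by linarith
        positivity
      · have h5 : 0 < p.1 + 2 * p.2 := by linarith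
        have : 0 ≤ 1 - p.1 + p.2 := by linarith
        positivity
  have h := riemann hΦ (J := J) (by simpa [Φ, Jint] using hJ)
  filter_upwards [(tendsto_add_atTop_nat 1).eventually h] with m hm
  set N : ℝ := ((m + 1 : ℕ) : ℝ) with hN
  have hN0 : 0 < N := by rw [hN]; positivity
  have e : ∀ j ∈ Finset.range (m + 1), cw β j (m - j) = (1 / N) ^ β / N * Φ (j / N, 1 / N) := by
    intro j hj
    have hj' : j ≤ m := Nat.lt_succ_iff.1 (Finset.mem_range.1 hj)
    have hj2 : (0 : ℝ) ≤ (m : ℝ) - j := sub_nonneg.2 (by exact_mod_cast hj')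
    have hm' : (m : ℝ) = N - 1 := by rw [hN]; push_cast; ring
    simp only [cw, Φ, Nat.cast_sub hj']
    rw [show j / N + 2 * (1 / N) = (j + 2) / N by ring,
      show 1 - j / N + 1 / N = (m - j + 2) / N by rw [hm']; field_simp; ring,
      div_rpow zero_le_one hN0.le, div_rpow (by positivity) hN0.le, div_rpow (by positivity) hN0.le,
      one_rpow, rpow_add hN0, show (3 : ℝ) = (3 : ℕ) by norm_num, rpow_natCast, hm']
    have h1 : 0 < ((j : ℝ) + 2) ^ (β + (3 : ℕ)) := by positivity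
    have h2 : 0 < (N - 1 - j + 2) ^ (β + (3 : ℕ)) := rpow_pos_of_pos (by linarith) _
    have h3 := rpow_pos_of_pos hN0 β
    field_simp
    ring
  rw [Finset.sum_congr rfl e, ← Finset.mul_sum]
  have h1 : (1 / (N + 1)) ^ β ≤ (1 / N) ^ β := by gcongr; linarith
  calc _ ≤ J * (1 / N) ^ β := by gcongr
    _ = (1 / N) ^ β / N * (J * N) := by field_simp
    _ ≤ _ := by gcongr

theorem pow_bd {β ρ : ℝ} (hβ : 0 < β) (hρ : ρ ∈ Ioo (0 : ℝ) 1) (n : ℕ) :
    ρ ^ n ≤ exp 1 * β ^ β * (1 / (1 - ρ)) ^ β * (1 / (n + 1 : ℝ)) ^ β := by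
  have hy : 0 < 1 - ρ := sub_pos.2 hρ.2
  have h0 := hρ.1
  set y := 1 - ρ with hy'
  have h1 : ρ ^ n ≤ exp (-y) ^ n := by
    gcongr
    linarith [add_one_le_exp (-y)]
  have h2 : ((n + 1) * y / β) ^ β ≤ exp ((n + 1) * y) := by
    calc _ ≤ exp ((n + 1) * y / β) ^ β := by
          gcongr
          linarith [add_one_le_exp ((n + 1) * y / β)]
      _ = _ := by rw [← exp_mul, div_mul_cancel₀ _ hβ.ne']
  have e : exp 1 * β ^ β * (1 / y) ^ β * (1 / (n + 1 : ℝ)) ^ β =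
      exp 1 / ((n + 1) * y / β) ^ β := by
    rw [mul_assoc, mul_assoc, ← mul_rpow (by positivity) (by positivity),
      ← mul_rpow (by positivity) (by positivity), div_eq_mul_inv (exp 1),
      ← inv_rpow (by positivity)]
    congr 2
    field_simp
  rw [e, le_div_iff₀ (by positivity)]
  calc _ ≤ exp (-y) ^ n * exp ((n + 1) * y) := by gcongr
    _ = exp y := by rw [← exp_nat_mul, ← exp_add]; congr 1; ring
    _ ≤ _ := exp_le_exp.2 (by linarith)

theorem growth {v : ℕ → ℂ} {r : ℕ → ℕ → ℂ} {M : ℝ → ℝ} (hr : ∀ j k, r j k + r k j = v (j + k + 1))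
    (hM : ∀ x ∈ Ioo (0 : ℝ) 1, HasSum (fun n => ‖v n‖ ^ 2 * x ^ n) (M x))
    (h : ∀ x ∈ Ioo (0 : ℝ) 1, ∀ s : Finset ℕ,
      ∑ k ∈ s, ∑ j ∈ s, k * ‖r j k‖ ^ 2 * x ^ j ≤ M x / (1 - x) ^ 2)
    {β : ℝ} (hβ : 0 < β) (hJ : 2 < β * (β + 1) * Jint β) :
    ∃ C, ∀ ρ ∈ Ioo (0 : ℝ) 1, M (ρ ^ 2) ≤ C * (1 / (1 - ρ)) ^ β := by
  have hb : 0 < β * (β + 1) := by positivity
  obtain ⟨J, hJ1, hJ2⟩ := exists_between ((div_lt_iff₀' hb).2 hJ)
  have hJ0 : 0 ≤ J := le_trans (by positivity) hJ1.le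
  obtain ⟨m0, hm0⟩ := eventually_atTop.1 (cw_sum hβ hJ0 hJ2)
  set κ := β * (β + 1) * J / 2 with hκ
  have hκ1 : 1 < κ := by
    rw [div_lt_iff₀' hb] at hJ1
    linarith
  let e : ℕ → ℝ := fun n => (1 / (n + 1 : ℝ)) ^ β
  have he0 : ∀ n, 0 ≤ e n := fun n => by positivity
  have he1 : ∀ n : ℕ, e n ≤ 1 := fun n =>
    rpow_le_one (by positivity) (by rw [div_le_one (by positivity)]; linarith [n.cast_nonneg (α := ℝ)])
      hβ.le
  set H := ∑ n ∈ Finset.range (m0 + 1), ‖v n‖ ^ 2 with hH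
  have hT : ∀ σ ∈ Ioo (0 : ℝ) 1, ∃ T, HasSum (fun n => ‖v n‖ ^ 2 * σ ^ n * e n) T ∧
      T ≤ κ * H / (κ - 1) := fun σ hσ => by
    have h0 := hσ.1
    have hsum : Summable fun n => ‖v n‖ ^ 2 * σ ^ n * e n :=
      (hM σ hσ).summable.of_nonneg_of_le (fun n => by have := he0 n; positivity) fun n =>
        mul_le_of_le_one_right (by positivity) (he1 n)
    refine ⟨_, hsum.hasSum, ?_⟩
    set T := ∑' n, ‖v n‖ ^ 2 * σ ^ n * e n
    have h1 : ∀ N, β * (β + 1) / 2 * ∑ m ∈ Finset.range N, ∑ j ∈ Finset.range (m + 1),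
        cw β j (m - j) * (‖v (j + (m - j) + 1)‖ ^ 2 * σ ^ (j + (m - j) + 1)) ≤ T := fun N => by
      have hw := weight (u := fun j k => k * ‖r j k‖ ^ 2) (fun n => by positivity)
        (fun j k => by positivity) hM (Finset.range N) (fun x hx => h x hx _) hβ hσ
      refine le_trans ?_ hw
      rw [Finset.sum_range_diag_flip N
        fun j k => cw β j k * (‖v (j + k + 1)‖ ^ 2 * σ ^ (j + k + 1)), div_mul_eq_mul_div,
        mul_div_assoc]
      refine mul_le_mul_of_nonneg_left ?_ hb.le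
      rw [div_le_iff₀ two_pos, mul_two]
      nth_rewrite 1 [Finset.sum_comm]
      rw [← Finset.sum_add_distrib]
      refine Finset.sum_le_sum fun j _ => ?_
      rw [← Finset.sum_add_distrib]
      refine (Finset.sum_le_sum_of_subset_of_nonneg (Finset.range_subset_range.2 (Nat.sub_le _ _))
        fun k _ _ => by have := cw_nonneg β j k; positivity).trans
        (Finset.sum_le_sum fun k _ => ?_)
      have c1 := cw_le β j k ‖r j k‖ ‖r k j‖
      have c2 : ‖v (j + k + 1)‖ ^ 2 ≤ (‖r j k‖ + ‖r k j‖) ^ 2 := by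
        rw [← hr]
        gcongr
        exact norm_add_le _ _
      have c3 : σ ^ (j + k + 1) ≤ σ ^ j := pow_le_pow_of_le_one h0.le hσ.2.le (by omega)
      have c4 : σ ^ (j + k + 1) ≤ σ ^ k := pow_le_pow_of_le_one h0.le hσ.2.le (by omega)
      have c5 := cw_nonneg β j k
      calc _ ≤ cw β j k * ((‖r j k‖ + ‖r k j‖) ^ 2 * σ ^ (j + k + 1)) := by gcongr
        _ ≤ (k * ‖r j k‖ ^ 2 * (1 / (j + 2 : ℝ)) ^ (β + 2) +
            j * ‖r k j‖ ^ 2 * (1 / (k + 2 : ℝ)) ^ (β + 2)) * σ ^ (j + k + 1) := by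
          rw [← mul_assoc]
          gcongr
        _ = k * ‖r j k‖ ^ 2 * σ ^ (j + k + 1) * (1 / (j + 2 : ℝ)) ^ (β + 2) +
            j * ‖r k j‖ ^ 2 * σ ^ (j + k + 1) * (1 / (k + 2 : ℝ)) ^ (β + 2) := by ring
        _ ≤ _ := by gcongr
    have h2 : ∀ N, κ * ∑ n ∈ Finset.range (m0 + 1 + N), ‖v n‖ ^ 2 * σ ^ n * e n ≤ κ * H + T := by
      intro N
      rw [Finset.sum_range_add, mul_add]
      refine add_le_add (mul_le_mul_of_nonneg_left (Finset.sum_le_sum fun n _ => ?_) (by linarith))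
        (le_trans ?_ (h1 (m0 + N)))
      · rw [mul_assoc]
        exact mul_le_of_le_one_right (by positivity)
          (mul_le_one₀ (pow_le_one₀ h0.le hσ.2.le) (he0 n) (he1 n))
      · rw [Finset.sum_range_add, mul_add, Finset.mul_sum, Finset.mul_sum (Finset.range N)]
        refine le_add_of_nonneg_of_le (mul_nonneg (by positivity) (Finset.sum_nonneg fun m _ =>
          Finset.sum_nonneg fun j _ => by have := cw_nonneg β j (m - j); positivity))
          (Finset.sum_le_sum fun i _ => ?_)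
        rw [Finset.sum_congr rfl fun j hj => by
          rw [Nat.add_sub_of_le (Nat.lt_succ_iff.1 (Finset.mem_range.1 hj))], ← Finset.sum_mul,
          show m0 + 1 + i = m0 + i + 1 by ring]
        have := hm0 (m0 + i) (Nat.le_add_right _ _)
        calc _ = β * (β + 1) / 2 * (J * e (m0 + i + 1) *
              (‖v (m0 + i + 1)‖ ^ 2 * σ ^ (m0 + i + 1))) := by rw [hκ]; ring
          _ ≤ _ := by gcongr
    have h3 : κ * T ≤ κ * H + T := by
      refine le_of_tendsto' (((hsum.hasSum.tendsto_sum_nat.comp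
        (tendsto_add_atTop_nat (m0 + 1))).const_mul κ)) fun N => ?_
      simpa only [Function.comp, add_comm N] using h2 N
    rw [le_div_iff₀ (by linarith)]
    linarith
  refine ⟨exp 1 * β ^ β * (κ * H / (κ - 1)), fun ρ hρ => ?_⟩
  obtain ⟨T, hT1, hT2⟩ := hT ρ hρ
  have h0 := hρ.1
  have hy : 0 < 1 - ρ := sub_pos.2 hρ.2
  have := hasSum_le (fun n => ?_) (hM (ρ ^ 2) ⟨by positivity, by nlinarith [hρ.2]⟩)
    (hT1.mul_left (exp 1 * β ^ β * (1 / (1 - ρ)) ^ β))
  · calc _ ≤ _ := this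
      _ ≤ exp 1 * β ^ β * (1 / (1 - ρ)) ^ β * (κ * H / (κ - 1)) := by gcongr
      _ = _ := by ring
  · calc _ = ‖v n‖ ^ 2 * ρ ^ n * ρ ^ n := by ring
      _ ≤ ‖v n‖ ^ 2 * ρ ^ n * (exp 1 * β ^ β * (1 / (1 - ρ)) ^ β * e n) := by
        gcongr
        exact pow_bd hβ hρ n
      _ = _ := by ring

end Vale.Agent.P142
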